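import Mathlib

/-! Row 215 (propeller): basic facts on standard Gaussian measures. -/

set_option autoImplicit false
set_option linter.unusedSectionVars false

open MeasureTheory ProbabilityTheory Real Set
open scoped RealInnerProductSpace ENNReal NNReal

noncomputable section

namespace Crest.Agent.R215

/-- The product of standard Gaussians. -/
def gam (ι : Type*) [Fintype ι] : Measure (ι → ℝ) := Measure.pi fun _ => gaussianReal 0 1

instance (ι : Type*) [Fintype ι] : IsProbabilityMeasure (gam ι) := by unfold gam; infer_instance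

lemma pdf_eq (x : ℝ) : gaussianPDFReal 0 1 x = (√(2 * π))⁻¹ * exp (-x ^ 2 / 2) := by
  simp [gaussianPDFReal]

lemma gam_eq (ι : Type*) [Fintype ι] : gam ι =
    volume.withDensity fun x => ENNReal.ofReal (∏ i, gaussianPDFReal 0 1 (x i)) := by
  refine Measure.pi_eq fun s hs => ?_
  rw [withDensity_apply _ (MeasurableSet.univ_pi hs), volume_pi, Measure.restrict_pi_pi,
    ← ofReal_integral_eq_lintegral_ofReal, integral_fintype_prod_eq_prod
      (f := fun _ x => gaussianPDFReal 0 1 x), ENNReal.ofReal_prod_of_nonneg]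
  · simp only [gaussianReal_apply_eq_integral _ one_ne_zero]
  · exact fun i _ => integral_nonneg fun x => gaussianPDFReal_nonneg _ _ _
  · exact Integrable.fintype_prod (f := fun _ x => gaussianPDFReal 0 1 x)
      fun i => (integrable_gaussianPDFReal _ _).restrict
  · exact ae_of_all _ fun x => Finset.prod_nonneg fun i _ => gaussianPDFReal_nonneg _ _ _

lemma prod_pdf {ι : Type*} [Fintype ι] (x : ι → ℝ) :
    ∏ i, gaussianPDFReal 0 1 (x i)
      = (√(2 * π))⁻¹ ^ Fintype.card ι * exp (-(∑ i, x i ^ 2) / 2) := by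
  simp only [pdf_eq, Finset.prod_mul_distrib, Finset.prod_const, Finset.card_univ, ← exp_sum]
  congr 2
  rw [← Finset.sum_div, Finset.sum_neg_distrib]

section law

variable {E : Type*} [NormedAddCommGroup E] [InnerProductSpace ℝ E] [FiniteDimensional ℝ E]
  [MeasurableSpace E] [BorelSpace E]
  {E' : Type*} [NormedAddCommGroup E'] [InnerProductSpace ℝ E'] [FiniteDimensional ℝ E']
  [MeasurableSpace E'] [BorelSpace E']
  {ι : Type*} [Fintype ι]

lemma measurable_coords (v : ι → E) : Measurable (fun (x : E) (i : ι) => ⟪v i, x⟫) := by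
  fun_prop

lemma charFun_coords (v : ι → E) (t : EuclideanSpace ℝ ι) :
    charFun ((stdGaussian E).map
      (fun x => (WithLp.toLp 2 (fun i => ⟪v i, x⟫) : EuclideanSpace ℝ ι))) t
      = Complex.exp (-((∑ i, ∑ j, t i * t j * ⟪v i, v j⟫ : ℝ) : ℂ) / 2) := by
  have h1 : ‖∑ i, t i • v i‖ ^ 2 = ∑ i, ∑ j, t i * t j * ⟪v i, v j⟫ := by
    rw [← real_inner_self_eq_norm_sq, sum_inner]
    refine Finset.sum_congr rfl fun i _ => ?_
    rw [inner_sum]
    refine Finset.sum_congr rfl fun j _ => ?_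
    rw [real_inner_smul_left, real_inner_smul_right]; ring
  rw [← h1, Complex.ofReal_pow, ← charFun_stdGaussian, charFun_apply, charFun_apply, integral_map]
  · refine integral_congr_ae (ae_of_all _ fun x => ?_)
    simp only
    congr 3
    rw [inner_sum]
    simp only [PiLp.inner_apply, real_inner_smul_right]
    refine Finset.sum_congr rfl fun i _ => ?_
    simp [real_inner_comm]
  · exact Measurable.aemeasurable (by fun_prop)
  · exact Measurable.aestronglyMeasurable (by fun_prop)

lemma law_eq_of_gram (v : ι → E) (w : ι → E') (h : ∀ i j, ⟪v i, v j⟫ = ⟪w i, w j⟫) :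
    (stdGaussian E).map (fun x i => ⟪v i, x⟫) = (stdGaussian E').map (fun x i => ⟪w i, x⟫) := by
  have h1 : (stdGaussian E).map
      (fun x => (WithLp.toLp 2 (fun i => ⟪v i, x⟫) : EuclideanSpace ℝ ι))
      = (stdGaussian E').map
      (fun x => (WithLp.toLp 2 (fun i => ⟪w i, x⟫) : EuclideanSpace ℝ ι)) := by
    have : IsProbabilityMeasure ((stdGaussian E).map
      (fun x => (WithLp.toLp 2 (fun i => ⟪v i, x⟫) : EuclideanSpace ℝ ι))) :=
      Measure.isProbabilityMeasure_map (Measurable.aemeasurable (by fun_prop))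
    have : IsProbabilityMeasure ((stdGaussian E').map
      (fun x => (WithLp.toLp 2 (fun i => ⟪w i, x⟫) : EuclideanSpace ℝ ι))) :=
      Measure.isProbabilityMeasure_map (Measurable.aemeasurable (by fun_prop))
    apply Measure.ext_of_charFun
    ext t
    rw [charFun_coords, charFun_coords]
    simp only [h]
  have h2 := congrArg (Measure.map (WithLp.ofLp : EuclideanSpace ℝ ι → ι → ℝ)) h1
  rw [Measure.map_map (by fun_prop) (by fun_prop), Measure.map_map (by fun_prop) (by fun_prop)]
    at h2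
  exact h2

lemma integral_eq_of_gram (v : ι → E) (w : ι → E') (h : ∀ i j, ⟪v i, v j⟫ = ⟪w i, w j⟫)
    (f : (ι → ℝ) → ℝ) (hf : Measurable f) :
    ∫ x, f (fun i => ⟪v i, x⟫) ∂stdGaussian E = ∫ x, f (fun i => ⟪w i, x⟫) ∂stdGaussian E' := by
  rw [← integral_map (measurable_coords v).aemeasurable hf.aestronglyMeasurable,
    ← integral_map (measurable_coords w).aemeasurable hf.aestronglyMeasurable,
    law_eq_of_gram v w h]

omit [FiniteDimensional ℝ E] [MeasurableSpace E] [BorelSpace E] [Fintype ι] in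
lemma exists_gram (v : ι → E) [FiniteDimensional ℝ (Submodule.span ℝ (range v))] (n : ℕ)
    (hn : Module.finrank ℝ (Submodule.span ℝ (range v)) ≤ n) :
    ∃ w : ι → EuclideanSpace ℝ (Fin n), ∀ i j, ⟪v i, v j⟫ = ⟪w i, w j⟫ := by
  set S := Submodule.span ℝ (range v)
  let b := stdOrthonormalBasis ℝ S
  let f : Fin (Module.finrank ℝ S) → EuclideanSpace ℝ (Fin n) :=
    fun k => EuclideanSpace.single (Fin.castLE hn k) (1 : ℝ)
  have hf : Orthonormal ℝ f :=
    (EuclideanSpace.orthonormal_single (𝕜 := ℝ) (ι := Fin n)).comp _ (Fin.castLE_injective hn)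
  let u : ι → S := fun i => ⟨v i, Submodule.subset_span (mem_range_self i)⟩
  refine ⟨fun i => ∑ k, ⟪b k, u i⟫ • f k, fun i j => ?_⟩
  rw [hf.inner_sum]
  have := b.sum_inner_mul_inner (u i) (u j)
  simp only [conj_trivial]
  rw [show ⟪v i, v j⟫ = ⟪u i, u j⟫ from rfl, ← this]
  refine Finset.sum_congr rfl fun k _ => ?_
  rw [real_inner_comm (u i)]

lemma map_inner (u : E) :
    (stdGaussian E).map (fun x => ⟪u, x⟫) = gaussianReal 0 (‖u‖₊ ^ 2) := by
  have h := IsGaussian.map_eq_gaussianReal (μ := stdGaussian E) (innerSL ℝ u)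
  rw [integral_strongDual_stdGaussian, variance_dual_stdGaussian, innerSL_apply_norm] at h
  have h2 : (‖u‖ ^ 2).toNNReal = ‖u‖₊ ^ 2 := by
    ext; simp
  rw [h2] at h
  exact h

lemma map_inner_unit {u : E} (hu : ‖u‖ = 1) :
    (stdGaussian E).map (fun x => ⟪u, x⟫) = gaussianReal 0 1 := by
  rw [map_inner]
  congr 1
  ext; simp [hu]

lemma integrable_id : Integrable (fun x : E => x) (stdGaussian E) := IsGaussian.integrable_id

lemma integrable_norm : Integrable (fun x : E => ‖x‖) (stdGaussian E) := integrable_id.norm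

lemma integrable_inner (u : E) : Integrable (fun x : E => ⟪u, x⟫) (stdGaussian E) :=
  integrable_id.const_inner u

lemma integral_inner_zero (u : E) : ∫ x, ⟪u, x⟫ ∂stdGaussian E = 0 := by
  rw [integral_inner integrable_id, integral_id_stdGaussian, inner_zero_right]

lemma setIntegral_inner (u : E) (A : Set E) :
    ∫ x in A, ⟪u, x⟫ ∂stdGaussian E = ⟪u, ∫ x in A, x ∂stdGaussian E⟫ :=
  integral_inner integrable_id.integrableOn u

end law

/-! ### The moments `I k` -/

/-- Half Gaussian moments. -/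
def I (k : ℕ) : ℝ := ∫ y in Ioi (0 : ℝ), y ^ k * exp (-y ^ 2 / 2)

lemma I_eq (k : ℕ) :
    I k = (1 / 2 : ℝ) ^ (-((k : ℝ) + 1) / 2) * (1 / 2) * Gamma (((k : ℝ) + 1) / 2) := by
  rw [← integral_rpow_mul_exp_neg_mul_rpow (p := 2) (q := k) (b := 1 / 2) (by norm_num)
    (by have : (0 : ℝ) ≤ k := k.cast_nonneg; linarith) (by norm_num)]
  refine setIntegral_congr_fun measurableSet_Ioi fun y _ => ?_
  simp only [rpow_natCast, rpow_two]
  congr 2; ring

lemma I_pos (k : ℕ) : 0 < I k := by
  rw [I_eq]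
  have : 0 < Gamma (((k : ℝ) + 1) / 2) := Gamma_pos_of_pos (by positivity)
  positivity

lemma I_succ (k : ℕ) : I (k + 2) = (k + 1) * I k := by
  rw [I_eq, I_eq]
  have h1 : (((k + 2 : ℕ) : ℝ) + 1) / 2 = ((k : ℝ) + 1) / 2 + 1 := by push_cast; ring
  have h2 : -(((k + 2 : ℕ) : ℝ) + 1) / 2 = -((k : ℝ) + 1) / 2 - 1 := by push_cast; ring
  rw [h1, h2, Gamma_add_one (by positivity), rpow_sub (by norm_num), rpow_one]
  ring

lemma I_one : I 1 = 1 := by
  rw [I_eq]
  norm_num [rpow_neg_one]

lemma I_zero : I 0 = √(2 * π) / 2 := by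
  have := integral_gaussian_Ioi (1 / 2)
  unfold I
  simp only [pow_zero, one_mul]
  rw [show 2 * π = π / (1 / 2) by ring, ← this]
  refine setIntegral_congr_fun measurableSet_Ioi fun y _ => ?_
  congr 1; ring

lemma integrableOn_I (k : ℕ) {a : ℝ} (ha : 0 < a) :
    IntegrableOn (fun y : ℝ => y ^ k * exp (-y ^ 2 / (2 * a ^ 2))) (Ioi 0) := by
  have := integrableOn_rpow_mul_exp_neg_mul_sq (b := 1 / (2 * a ^ 2)) (by positivity) (s := k)
    (by have : (0 : ℝ) ≤ k := k.cast_nonneg; linarith)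
  refine this.congr_fun (fun y _ => ?_) measurableSet_Ioi
  simp only [rpow_natCast]
  congr 2; ring

lemma I_scale (k : ℕ) {a : ℝ} (ha : 0 < a) :
    ∫ y in Ioi (0 : ℝ), y ^ k * exp (-y ^ 2 / (2 * a ^ 2)) = a ^ (k + 1) * I k := by
  have h := integral_comp_mul_left_Ioi (fun y : ℝ => y ^ k * exp (-y ^ 2 / (2 * a ^ 2))) 0 ha
  simp only [mul_zero, smul_eq_mul] at h
  have h2 : ∫ x in Ioi (0 : ℝ), (a * x) ^ k * exp (-(a * x) ^ 2 / (2 * a ^ 2)) = a ^ k * I k := by
    unfold I
    rw [← integral_const_mul]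
    refine setIntegral_congr_fun measurableSet_Ioi fun y _ => ?_
    rw [mul_pow, mul_assoc]
    congr 3
    field_simp
  rw [h2] at h
  rw [show a ^ (k + 1) * I k = a * (a ^ k * I k) by ring, h]
  field_simp

lemma sqrt_two_pi_pos : 0 < √(2 * π) := sqrt_pos.2 (by positivity)

lemma sq_sqrt_two_pi : √(2 * π) ^ 2 = 2 * π := sq_sqrt (by positivity)

/-- Integral against the standard Gaussian on the line. -/
lemma integral_gauss (f : ℝ → ℝ) :
    ∫ x, f x ∂gaussianReal 0 1 = (√(2 * π))⁻¹ * ∫ x, exp (-x ^ 2 / 2) * f x := by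
  rw [integral_gaussianReal_eq_integral_smul one_ne_zero, ← integral_const_mul]
  simp only [pdf_eq, smul_eq_mul, mul_assoc]

lemma integral_gauss_Ioi_pow (k : ℕ) :
    ∫ x, (Ioi (0 : ℝ)).indicator (fun x => x ^ k) x ∂gaussianReal 0 1
      = (√(2 * π))⁻¹ * I k := by
  rw [integral_gauss, I, ← integral_indicator measurableSet_Ioi]
  congr 1
  refine integral_congr_ae (ae_of_all _ fun x => ?_)
  by_cases hx : x ∈ Ioi (0 : ℝ) <;> simp [hx, mul_comm]

lemma integral_abs_gauss : ∫ x, |x| ∂gaussianReal 0 1 = 2 * (√(2 * π))⁻¹ := by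
  rw [integral_gauss]
  have h := integral_comp_abs (f := fun x : ℝ => exp (-x ^ 2 / 2) * x)
  simp only [sq_abs] at h
  rw [h]
  have := I_one
  unfold I at this
  simp only [pow_one] at this
  simp only [mul_comm (exp _)]
  rw [this]; ring

lemma integral_abs_inner {E : Type*} [NormedAddCommGroup E] [InnerProductSpace ℝ E]
    [FiniteDimensional ℝ E] [MeasurableSpace E] [BorelSpace E] (u : E) :
    ∫ x, |⟪u, x⟫| ∂stdGaussian E = 2 * (√(2 * π))⁻¹ * ‖u‖ := by
  by_cases hu : u = 0
  · simp [hu]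
  have hn : 0 < ‖u‖ := norm_pos_iff.2 hu
  have he : ‖‖u‖⁻¹ • u‖ = 1 := by rw [norm_smul, norm_inv, norm_norm]; field_simp
  have h1 : ∫ x, |⟪‖u‖⁻¹ • u, x⟫| ∂stdGaussian E = 2 * (√(2 * π))⁻¹ := by
    rw [← integral_abs_gauss, ← map_inner_unit he, integral_map (by fun_prop) (by fun_prop)]
  rw [← h1, mul_comm, ← integral_const_mul]
  refine integral_congr_ae (ae_of_all _ fun x => ?_)
  simp only [real_inner_smul_left, abs_mul, abs_inv, abs_norm]
  field_simp

end Crest.Agent.R215
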