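import Crest.Agent.R215.Polar

/-! Row 215 (propeller): the dual functional `E max ⟪v i, g⟫`. -/

set_option autoImplicit false
set_option linter.unusedSectionVars false

open MeasureTheory ProbabilityTheory Real Set Metric
open scoped RealInnerProductSpace ENNReal NNReal

noncomputable section

namespace Crest.Agent.R215

variable {E : Type*} [NormedAddCommGroup E] [InnerProductSpace ℝ E] [FiniteDimensional ℝ E]
  [MeasurableSpace E] [BorelSpace E]
  {E' : Type*} [NormedAddCommGroup E'] [InnerProductSpace ℝ E'] [FiniteDimensional ℝ E']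
  [MeasurableSpace E'] [BorelSpace E']
  {ι : Type*} [Fintype ι] [Nonempty ι] {κ : Type*} [Fintype κ]

/-- The maximum of the linear forms. -/
def mx {E : Type*} [NormedAddCommGroup E] [InnerProductSpace ℝ E] {ι : Type*} (v : ι → E)
    (x : E) : ℝ := ⨆ i, ⟪v i, x⟫

/-- The Gaussian mean of the maximum. -/
def Fm {ι : Type*} (v : ι → E) : ℝ := ∫ x, mx v x ∂stdGaussian E

/-- The propeller constant. -/
def cc : ℝ := 3 / (2 * √(2 * π))

lemma cc_pos : 0 < cc := by have := sqrt_two_pi_pos; unfold cc; positivity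

lemma le_mx (v : ι → E) (i : ι) (x : E) : ⟪v i, x⟫ ≤ mx v x :=
  le_ciSup (f := fun i => ⟪v i, x⟫) (Finite.bddAbove_range _) i

lemma mx_le {v : ι → E} {x : E} {a : ℝ} (h : ∀ i, ⟪v i, x⟫ ≤ a) : mx v x ≤ a := ciSup_le h

lemma exists_mx (v : ι → E) (x : E) : ∃ i, ⟪v i, x⟫ = mx v x := exists_eq_ciSup_of_finite

lemma measurable_mx (v : ι → E) : Measurable (mx v) := Measurable.iSup fun i => by fun_prop

lemma integrable_mx (v : ι → E) : Integrable (mx v) (stdGaussian E) := by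
  refine Integrable.mono' (integrable_norm.const_mul ‖v‖) (measurable_mx v).aestronglyMeasurable
    (ae_of_all _ fun x => ?_)
  obtain ⟨i, hi⟩ := exists_mx v x
  rw [← hi]
  exact (norm_inner_le_norm _ _).trans
    (mul_le_mul_of_nonneg_right (norm_le_pi_norm v i) (norm_nonneg _))

lemma continuous_Fm : Continuous (Fm : (ι → E) → ℝ) := by
  refine (LipschitzWith.of_le_add_mul' (∫ x, ‖x‖ ∂stdGaussian E) fun v w => ?_).continuous
  unfold Fm
  rw [← integral_mul_const, ← integral_add (integrable_mx w) (integrable_norm.mul_const _)]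
  refine integral_mono (integrable_mx v) ((integrable_mx w).add (integrable_norm.mul_const _))
    fun x => mx_le fun i => ?_
  have h1 : ⟪v i, x⟫ = ⟪w i, x⟫ + ⟪v i - w i, x⟫ := by rw [inner_sub_left]; ring
  have h2 : ⟪v i - w i, x⟫ ≤ ‖x‖ * dist v w := by
    refine (real_inner_le_norm _ _).trans ?_
    rw [mul_comm, ← dist_eq_norm]
    exact mul_le_mul_of_nonneg_left (dist_le_pi_dist v w i) (norm_nonneg _)
  have := le_mx w i x
  linarith

lemma Fm_smul (v : ι → E) {t : ℝ} (ht : 0 ≤ t) : Fm (fun i => t • v i) = t * Fm v := by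
  unfold Fm
  rw [← integral_const_mul]
  refine integral_congr_ae (ae_of_all _ fun x => ?_)
  simp only [mx, real_inner_smul_left, Real.mul_iSup_of_nonneg ht]

lemma Fm_sub (v : ι → E) (a : E) : Fm (fun i => v i - a) = Fm v := by
  have h : ∀ x, mx (fun i => v i - a) x = mx v x - ⟪a, x⟫ := fun x => by
    refine le_antisymm (mx_le fun i => ?_) ?_
    · rw [inner_sub_left]; linarith [le_mx v i x]
    · obtain ⟨i, hi⟩ := exists_mx v x
      have := le_mx (fun i => v i - a) i x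
      rw [inner_sub_left] at this
      linarith
  unfold Fm
  simp only [h]
  rw [integral_sub (integrable_mx v) (integrable_inner a), integral_inner_zero, sub_zero]

lemma Fm_gram (v : ι → E) (w : ι → E') (h : ∀ i j, ⟪v i, v j⟫ = ⟪w i, w j⟫) : Fm v = Fm w :=
  integral_eq_of_gram v w h (fun a => ⨆ i, a i) (Measurable.iSup fun i => by fun_prop)

/-- A finite measurable partition. -/
structure IsPart (A : κ → Set E) : Prop where
  meas : ∀ i, MeasurableSet (A i)
  disj : Pairwise fun i j => Disjoint (A i) (A j)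
  cov : ⋃ i, A i = univ

lemma IsPart.sum_integral {A : κ → Set E} (hA : IsPart A) {F : Type*} [NormedAddCommGroup F]
    [NormedSpace ℝ F] {f : E → F} (hf : Integrable f (stdGaussian E)) :
    ∑ i, ∫ x in A i, f x ∂stdGaussian E = ∫ x, f x ∂stdGaussian E := by
  rw [← integral_iUnion_fintype hA.meas hA.disj (fun i => hf.integrableOn), hA.cov,
    Measure.restrict_univ]

lemma IsPart.sum_measure {A : κ → Set E} (hA : IsPart A) :
    ∑ i, (stdGaussian E).real (A i) = 1 := by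
  simpa using hA.sum_integral (f := fun _ => (1 : ℝ)) (integrable_const _)

lemma inner_setIntegral_le (w : ι → E) (j : ι) (B : Set E) :
    ⟪w j, ∫ x in B, x ∂stdGaussian E⟫ ≤ ∫ x in B, mx w x ∂stdGaussian E := by
  rw [← setIntegral_inner]
  exact setIntegral_mono (integrable_inner _).integrableOn (integrable_mx w).integrableOn
    fun x => le_mx w j x

lemma IsPart.sum_le {A : κ → Set E} (hA : IsPart A) (w : ι → E) (σ : κ → ι) :
    ∑ i, ⟪w (σ i), ∫ x in A i, x ∂stdGaussian E⟫ ≤ Fm w := by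
  unfold Fm
  rw [← hA.sum_integral (integrable_mx w)]
  exact Finset.sum_le_sum fun i _ => inner_setIntegral_le w _ _

lemma sum_norm_sub_sq (v : κ → E) (a : E) :
    ∑ i, ‖v i - a‖ ^ 2 = ∑ i, ‖v i‖ ^ 2 - 2 * ⟪∑ i, v i, a⟫ + Fintype.card κ * ‖a‖ ^ 2 := by
  simp only [norm_sub_sq_real, Finset.sum_add_distrib, Finset.sum_sub_distrib, sum_inner,
    Finset.mul_sum, Finset.sum_const, Finset.card_univ, nsmul_eq_mul]

/-- The bound for `M` vectors. -/
def Bnd (M : ℕ) : Prop :=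
  ∀ (n : ℕ) (v : Fin M → EuclideanSpace ℝ (Fin n)), Fm v ≤ cc * √(∑ i, ‖v i‖ ^ 2)

lemma sum_norm_gram (v : κ → E) (w : κ → E') (h : ∀ i j, ⟪v i, v j⟫ = ⟪w i, w j⟫) :
    ∑ i, ‖v i‖ ^ 2 = ∑ i, ‖w i‖ ^ 2 := by
  simp only [← real_inner_self_eq_norm_sq, h]

lemma Bnd.general {M : ℕ} (h : Bnd M) (hc : Fintype.card ι ≤ M) (v : ι → E) :
    Fm v ≤ cc * √(∑ i, ‖v i‖ ^ 2) := by
  obtain ⟨w, hw⟩ := exists_gram v _ le_rfl
  rw [Fm_gram v w hw, sum_norm_gram v w hw]
  obtain ⟨f⟩ := Function.Embedding.nonempty_of_card_le (α := ι) (β := Fin M) (by simpa using hc)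
  have : Nonempty (Fin M) := ⟨f (Classical.arbitrary ι)⟩
  have h1 := h _ (Function.extend f w 0)
  rw [Fintype.sum_of_injective f f.injective (fun i => ‖w i‖ ^ 2)
    (fun j => ‖Function.extend f w 0 j‖ ^ 2) (fun j hj => by
      rw [Function.extend_apply' _ _ _ (by simpa using hj)]; simp)
    (fun i => by rw [f.injective.extend_apply])]
  refine le_trans ?_ h1
  refine integral_mono (integrable_mx _) (integrable_mx _) fun x => mx_le fun i => ?_
  have := le_mx (Function.extend f w 0) (f i) x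
  rwa [f.injective.extend_apply] at this

lemma bnd_three : Bnd 3 := by
  intro n v
  have hs := sqrt_two_pi_pos
  have h1 : Fm (fun i => -v i) = Fm v := Fm_gram _ _ fun i j => by simp
  have i1 := fun i j => (integrable_inner (v i - v j)).abs
  have h2 : Fm v + Fm (fun i => -v i) ≤ ∫ x, (|⟪v 0 - v 1, x⟫| + |⟪v 0 - v 2, x⟫|
      + |⟪v 1 - v 2, x⟫|) / 2 ∂stdGaussian _ := by
    unfold Fm
    rw [← integral_add (integrable_mx _) (integrable_mx _)]
    refine integral_mono ((integrable_mx _).add (integrable_mx _))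
      ((((i1 0 1).add (i1 0 2)).add (i1 1 2)).div_const 2) fun x => ?_
    obtain ⟨i, hi⟩ := exists_mx v x
    obtain ⟨j, hj⟩ := exists_mx (fun i => -v i) x
    simp only [← hi, ← hj, inner_neg_left, inner_sub_left]
    have a1 := le_abs_self (⟪v 0, x⟫ - ⟪v 1, x⟫)
    have a2 := le_abs_self (⟪v 0, x⟫ - ⟪v 2, x⟫)
    have a3 := le_abs_self (⟪v 1, x⟫ - ⟪v 2, x⟫)
    have b1 := neg_le_abs (⟪v 0, x⟫ - ⟪v 1, x⟫)
    have b2 := neg_le_abs (⟪v 0, x⟫ - ⟪v 2, x⟫)
    have b3 := neg_le_abs (⟪v 1, x⟫ - ⟪v 2, x⟫)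
    fin_cases i <;> fin_cases j <;> simp only [Fin.zero_eta, Fin.mk_one, Fin.reduceFinMk] <;>
      linarith
  have i2 : Integrable (fun x => |⟪v 0 - v 1, x⟫| + |⟪v 0 - v 2, x⟫|) (stdGaussian _) :=
    (i1 0 1).add (i1 0 2)
  rw [h1, integral_div, integral_add i2 (i1 1 2), integral_add (i1 0 1) (i1 0 2),
    integral_abs_inner, integral_abs_inner, integral_abs_inner] at h2
  have h3 : ‖v 0 - v 1‖ + ‖v 0 - v 2‖ + ‖v 1 - v 2‖ ≤ 3 * √(∑ i, ‖v i‖ ^ 2) := by
    have h4 : ‖v 0 - v 1‖ ^ 2 + ‖v 0 - v 2‖ ^ 2 + ‖v 1 - v 2‖ ^ 2 + ‖v 0 + v 1 + v 2‖ ^ 2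
        = 3 * ∑ i, ‖v i‖ ^ 2 := by
      simp only [Fin.sum_univ_three, norm_sub_sq_real, norm_add_sq_real, inner_add_left]
      ring
    have h5 : 0 ≤ ∑ i, ‖v i‖ ^ 2 := by positivity
    refine abs_le_of_sq_le_sq' ?_ (by positivity) |>.2
    rw [mul_pow, sq_sqrt h5]
    nlinarith [sq_nonneg (‖v 0 - v 1‖ - ‖v 0 - v 2‖), sq_nonneg (‖v 0 - v 1‖ - ‖v 1 - v 2‖),
      sq_nonneg (‖v 0 - v 2‖ - ‖v 1 - v 2‖), sq_nonneg ‖v 0 + v 1 + v 2‖]
  have h6 : cc * √(∑ i, ‖v i‖ ^ 2) = (√(2 * π))⁻¹ / 2 * (3 * √(∑ i, ‖v i‖ ^ 2)) := by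
    unfold cc; field_simp
  rw [h6]
  have := mul_le_mul_of_nonneg_left h3 (show 0 ≤ (√(2 * π))⁻¹ / 2 by positivity)
  linarith

/-- The cells of the argmax partition (ties broken by the order). -/
def cell {m : ℕ} (v : Fin m → E) (i : Fin m) : Set E :=
  {x | ∀ j, ⟪v j, x⟫ ≤ ⟪v i, x⟫ ∧ (j < i → ⟪v j, x⟫ < ⟪v i, x⟫)}

lemma isCone_cell {m : ℕ} (v : Fin m → E) (i : Fin m) : IsCone (cell v i) := fun x t ht => by
  simp only [cell, mem_ofPred_eq, real_inner_smul_right, mul_le_mul_iff_right₀ ht,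
    mul_lt_mul_iff_right₀ ht]

lemma isPart_cell {m : ℕ} [NeZero m] (v : Fin m → E) : IsPart (cell v) where
  meas i := by
    unfold cell
    rw [ofPred_forall]
    refine MeasurableSet.iInter fun j => (measurableSet_le (f := fun x => ⟪v j, x⟫)
      (g := fun x => ⟪v i, x⟫) (by fun_prop) (by fun_prop)).inter ?_
    by_cases h : j < i
    · simp only [h, forall_const]
      exact measurableSet_lt (by fun_prop) (by fun_prop)
    · simp only [h, false_imp_iff]
      exact MeasurableSet.univ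
  disj i j hij := by
    refine Set.disjoint_left.2 fun x hi hj => ?_
    rcases lt_or_gt_of_ne hij with h | h
    · linarith [(hj i).2 h, (hi j).1]
    · linarith [(hi j).2 h, (hj i).1]
  cov := by
    refine eq_univ_of_forall fun x => mem_iUnion.2 ?_
    obtain ⟨i, hi, hmin⟩ := (Finset.univ.filter fun i => ⟪v i, x⟫ = mx v x).exists_min_image id
      (by obtain ⟨i, hi⟩ := exists_mx v x; exact ⟨i, by simp [hi]⟩)
    simp only [Finset.mem_filter, Finset.mem_univ, true_and, id] at hi hmin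
    refine ⟨i, fun j => ⟨hi ▸ le_mx v j x, fun hj => ?_⟩⟩
    rw [hi]
    exact lt_of_le_of_ne (le_mx v j x) fun h => absurd (hmin j h) (not_le.2 hj)

lemma Fm_eq_cell {m : ℕ} [NeZero m] (v : Fin m → E) :
    Fm v = ∑ i, ⟪v i, ∫ x in cell v i, x ∂stdGaussian E⟫ := by
  unfold Fm
  rw [← (isPart_cell v).sum_integral (integrable_mx v)]
  refine Finset.sum_congr rfl fun i _ => ?_
  rw [← setIntegral_inner]
  refine setIntegral_congr_fun ((isPart_cell v).meas i) fun x hx => ?_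
  exact le_antisymm (mx_le fun j => (hx j).1) (le_mx v i x)

/-- If the bound fails, there is a critical configuration in the prescribed dimension. -/
theorem exists_critical {M n : ℕ} (hn : M ≤ n) (h : ¬ Bnd (M + 1)) :
    ∃ (v : Fin (M + 1) → EuclideanSpace ℝ (Fin n)) (lam : ℝ), cc < lam ∧ ∑ i, ‖v i‖ ^ 2 = 1 ∧
      ∀ i, ∫ x in cell v i, x ∂stdGaussian _ = lam • v i := by
  unfold Bnd at h
  push Not at h
  obtain ⟨n', u, hu⟩ := h
  -- centre and move to dimension `n`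
  let a : EuclideanSpace ℝ (Fin n') := ((M : ℝ) + 1)⁻¹ • ∑ i, u i
  have hM : (0 : ℝ) < M + 1 := by positivity
  have hle : ∑ i, ‖u i - a‖ ^ 2 ≤ ∑ i, ‖u i‖ ^ 2 := by
    rw [sum_norm_sub_sq]
    simp only [a, real_inner_smul_right, real_inner_self_eq_norm_sq, norm_smul, Fintype.card_fin,
      norm_inv, Real.norm_eq_abs, abs_of_pos hM]
    push_cast
    have : (M + 1) * (((M : ℝ) + 1)⁻¹ * ‖∑ i, u i‖) ^ 2 = ((M : ℝ) + 1)⁻¹ * ‖∑ i, u i‖ ^ 2 := by
      field_simp
    have : 0 ≤ ((M : ℝ) + 1)⁻¹ * ‖∑ i, u i‖ ^ 2 := by positivity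
    linarith
  have hrank : Module.finrank ℝ (Submodule.span ℝ (range fun i => u i - a)) ≤ n := by
    refine le_trans (Submodule.finrank_mono ?_)
      ((finrank_vectorSpan_range_le ℝ u (n := M) (by simp)).trans hn)
    rw [Submodule.span_le]
    rintro _ ⟨i, rfl⟩
    have : u i - a = ((M : ℝ) + 1)⁻¹ • ∑ j, (u i - u j) := by
      simp only [a, Finset.sum_sub_distrib, Finset.sum_const, Finset.card_univ, Fintype.card_fin,
        smul_sub, ← Nat.cast_smul_eq_nsmul ℝ, smul_smul]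
      push_cast
      rw [inv_mul_cancel₀ hM.ne', one_smul]
    simp only [this]
    exact Submodule.smul_mem _ _ (Submodule.sum_mem _ fun j _ =>
      vsub_mem_vectorSpan ℝ (mem_range_self i) (mem_range_self j))
  obtain ⟨w, hw⟩ := exists_gram (fun i => u i - a) n hrank
  have hw1 : cc * √(∑ i, ‖w i‖ ^ 2) < Fm w := by
    rw [← Fm_gram _ w hw, ← sum_norm_gram _ w hw, Fm_sub]
    exact lt_of_le_of_lt (mul_le_mul_of_nonneg_left (sqrt_le_sqrt hle) cc_pos.le) hu
  -- normalisation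
  have hnorm : ∀ w : Fin (M + 1) → EuclideanSpace ℝ (Fin n), ∑ i, ‖w i‖ ^ 2 = 0 → Fm w = 0 := by
    intro w h0
    have : w = fun i => (0 : ℝ) • w i := by
      ext1 i
      have := (Finset.sum_eq_zero_iff_of_nonneg (fun i _ => sq_nonneg ‖w i‖)).1 h0 i
        (Finset.mem_univ i)
      simpa using this
    rw [this, Fm_smul _ le_rfl, zero_mul]
  let K : Set (Fin (M + 1) → EuclideanSpace ℝ (Fin n)) := {v | ∑ i, ‖v i‖ ^ 2 = 1}
  have hscale : ∀ w : Fin (M + 1) → EuclideanSpace ℝ (Fin n), ∑ i, ‖w i‖ ^ 2 ≠ 0 →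
      (fun i => (√(∑ i, ‖w i‖ ^ 2))⁻¹ • w i) ∈ K := by
    intro w h0
    have h1 : 0 ≤ ∑ i, ‖w i‖ ^ 2 := by positivity
    simp only [K, mem_ofPred_eq, norm_smul, mul_pow, ← Finset.mul_sum, norm_inv, Real.norm_eq_abs,
      inv_pow, sq_abs, sq_sqrt h1]
    exact inv_mul_cancel₀ h0
  have hK : IsCompact K := by
    refine Metric.isCompact_of_isClosed_isBounded (isClosed_eq (by fun_prop) continuous_const) ?_
    refine (Metric.isBounded_closedBall (x := 0) (r := 1)).subset fun v hv => ?_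
    rw [mem_closedBall_zero_iff, pi_norm_le_iff_of_nonneg zero_le_one]
    intro i
    have h1 : ‖v i‖ ^ 2 ≤ ∑ i, ‖v i‖ ^ 2 :=
      Finset.single_le_sum (f := fun i => ‖v i‖ ^ 2) (fun i _ => sq_nonneg _) (Finset.mem_univ i)
    rw [show ∑ i, ‖v i‖ ^ 2 = 1 from hv] at h1
    nlinarith [norm_nonneg (v i)]
  have hw0 : ∑ i, ‖w i‖ ^ 2 ≠ 0 := fun h0 => by
    rw [h0, hnorm w h0] at hw1; simp at hw1
  obtain ⟨v, hvK, hvmax⟩ := hK.exists_isMaxOn ⟨_, hscale w hw0⟩ continuous_Fm.continuousOn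
  have hmax : ∀ w : Fin (M + 1) → EuclideanSpace ℝ (Fin n),
      Fm w ≤ Fm v * √(∑ i, ‖w i‖ ^ 2) := by
    intro w
    by_cases h0 : ∑ i, ‖w i‖ ^ 2 = 0
    · rw [h0, hnorm w h0]; simp
    have h1 : 0 < √(∑ i, ‖w i‖ ^ 2) := sqrt_pos.2 (lt_of_le_of_ne (by positivity) (Ne.symm h0))
    have h2 : Fm _ ≤ Fm v := hvmax (hscale w h0)
    rw [Fm_smul _ (by positivity), inv_mul_le_iff₀ h1] at h2
    linarith
  have hlam : cc < Fm v := by
    have h1 : 0 < √(∑ i, ‖w i‖ ^ 2) := sqrt_pos.2 (lt_of_le_of_ne (by positivity) (Ne.symm hw0))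
    exact lt_of_mul_lt_mul_right (hw1.trans_le (hmax w)) h1.le
  refine ⟨v, Fm v, hlam, hvK, ?_⟩
  set z : Fin (M + 1) → EuclideanSpace ℝ (Fin n) := fun i => ∫ x in cell v i, x ∂stdGaussian _
    with hz
  have h1 : ∑ i, ‖z i‖ ^ 2 ≤ Fm v * √(∑ i, ‖z i‖ ^ 2) := by
    refine le_trans ?_ (hmax z)
    have : ∑ i, ⟪z i, z i⟫ ≤ Fm z := (isPart_cell v).sum_le z id
    simpa only [real_inner_self_eq_norm_sq] using this
  have hl0 : 0 < Fm v := cc_pos.trans hlam
  have h2 : ∑ i, ‖z i‖ ^ 2 ≤ Fm v ^ 2 := by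
    have h3 : 0 ≤ ∑ i, ‖z i‖ ^ 2 := by positivity
    nlinarith [sq_sqrt h3, sq_nonneg (Fm v - √(∑ i, ‖z i‖ ^ 2))]
  have h3 : ∑ i, ‖z i - Fm v • v i‖ ^ 2 ≤ 0 := by
    have h4 : Fm v = ∑ i, ⟪v i, z i⟫ := Fm_eq_cell v
    have h5 : ∑ i, ‖v i‖ ^ 2 = 1 := hvK
    simp only [norm_sub_sq_real, Finset.sum_add_distrib, Finset.sum_sub_distrib, norm_smul,
      mul_pow, real_inner_smul_right, ← Finset.mul_sum, h5, Real.norm_eq_abs, sq_abs]
    simp only [real_inner_comm (v _)]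
    rw [← h4]
    nlinarith
  intro i
  have := (Finset.sum_eq_zero_iff_of_nonneg (fun i _ => sq_nonneg ‖z i - Fm v • v i‖)).1
    (le_antisymm h3 (by positivity)) i (Finset.mem_univ i)
  exact sub_eq_zero.1 (by simpa using this)

end Crest.Agent.R215
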