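import Crest.Agent.R215.Polar

/-! Row 215 (propeller): the cap bound for cones and the half-space bound. -/

set_option autoImplicit false
set_option linter.unusedSectionVars false

open MeasureTheory ProbabilityTheory Real Set Metric
open scoped RealInnerProductSpace ENNReal NNReal

noncomputable section

namespace Crest.Agent.R215

lemma lintegral_gauss {f : ℝ → ℝ≥0∞} (hf : Measurable f) :
    ∫⁻ x, f x ∂gaussianReal 0 1
      = ∫⁻ x, ENNReal.ofReal ((√(2 * π))⁻¹ * exp (-x ^ 2 / 2)) * f x := by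
  rw [gaussianReal_of_var_ne_zero _ one_ne_zero, lintegral_withDensity_eq_lintegral_mul _
    (measurable_gaussianPDF _ _) hf]
  simp only [Pi.mul_apply, gaussianPDF, pdf_eq]

/-- The correction kernel. -/
def kerC (τ : ℝ) (p : ℝ × ℝ) : ℝ≥0∞ := if 0 < p.1 then ENNReal.ofReal (τ * p.2 - p.1) else 0

lemma measurable_kerC (τ : ℝ) : Measurable (kerC τ) :=
  Measurable.ite (measurableSet_lt measurable_const measurable_fst) (by fun_prop) measurable_const

lemma stepA (τ : ℝ) {ρ : ℝ} (hρ : 0 < ρ) :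
    ∫⁻ t, kerC τ (t, √(t ^ 2 + ρ ^ 2)) ∂gaussianReal 0 1
      = ∫⁻ u in Ioo (0 : ℝ) 1, ENNReal.ofReal (τ - u) * ENNReal.ofReal ((√(2 * π))⁻¹ * ρ ^ 2 /
        √(1 - u ^ 2) ^ 4 * exp (-(ρ * u / √(1 - u ^ 2)) ^ 2 / 2)) := by
  have hs := sqrt_two_pi_pos
  rw [lintegral_gauss (f := fun t => kerC τ (t, √(t ^ 2 + ρ ^ 2)))
    ((measurable_kerC τ).comp (by fun_prop))]
  let g : ℝ → ℝ≥0∞ := fun t =>
    ENNReal.ofReal ((√(2 * π))⁻¹ * exp (-t ^ 2 / 2)) * ENNReal.ofReal (τ * √(t ^ 2 + ρ ^ 2) - t)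
  have h1 : ∫⁻ x, ENNReal.ofReal ((√(2 * π))⁻¹ * exp (-x ^ 2 / 2)) *
      kerC τ (x, √(x ^ 2 + ρ ^ 2)) = ∫⁻ t in Ioi (0 : ℝ), g t := by
    rw [← lintegral_indicator measurableSet_Ioi]
    refine lintegral_congr fun t => ?_
    by_cases h : 0 < t <;> simp [kerC, g, h, indicator]
  let f : ℝ → ℝ := fun u => ρ * u / √(1 - u ^ 2)
  have hw : ∀ u ∈ Ioo (0 : ℝ) 1, 0 < 1 - u ^ 2 := fun u hu => by nlinarith [hu.1, hu.2]
  have himg : f '' Ioo 0 1 = Ioi 0 := by
    ext t
    constructor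
    · rintro ⟨u, hu, rfl⟩
      have := sqrt_pos.2 (hw u hu)
      have := hu.1
      simp only [f, mem_Ioi]
      positivity
    · intro ht
      have ht' : 0 < t := ht
      have hq : 0 < √(t ^ 2 + ρ ^ 2) := sqrt_pos.2 (by positivity)
      have hq2 : √(t ^ 2 + ρ ^ 2) ^ 2 = t ^ 2 + ρ ^ 2 := sq_sqrt (by positivity)
      refine ⟨t / √(t ^ 2 + ρ ^ 2), ⟨by positivity, ?_⟩, ?_⟩
      · rw [div_lt_one hq]
        exact lt_sqrt_of_sq_lt (by nlinarith)
      · simp only [f]
        have : √(1 - (t / √(t ^ 2 + ρ ^ 2)) ^ 2) = ρ / √(t ^ 2 + ρ ^ 2) := by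
          rw [← sqrt_sq (x := ρ / √(t ^ 2 + ρ ^ 2)) (by positivity)]
          congr 1
          rw [div_pow, div_pow, hq2]
          field_simp
          ring
        rw [this]
        field_simp
  have hder : ∀ u ∈ Ioo (0 : ℝ) 1, HasDerivWithinAt f (ρ / √(1 - u ^ 2) ^ 3) (Ioo 0 1) u := by
    intro u hu
    have h0 := hw u hu
    have hq := sqrt_pos.2 h0
    have hq2 : √(1 - u ^ 2) ^ 2 = 1 - u ^ 2 := sq_sqrt h0.le
    have h2 : HasDerivAt (fun u : ℝ => 1 - u ^ 2) (-(2 * u)) u := by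
      simpa using (hasDerivAt_pow 2 u).const_sub 1
    have h3 := (((hasDerivAt_id u).const_mul ρ).div (h2.sqrt h0.ne') hq.ne')
    refine (h3.congr_deriv ?_).hasDerivWithinAt
    simp only [id]
    field_simp
    rw [hq2]; ring
  have hinj : InjOn f (Ioo 0 1) := by
    intro a ha b hb hab
    have ha0 := hw a ha
    have hb0 := hw b hb
    have hqa := sqrt_pos.2 ha0
    have hqb := sqrt_pos.2 hb0
    simp only [f] at hab
    have h2 : a * √(1 - b ^ 2) = b * √(1 - a ^ 2) := by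
      field_simp at hab; linarith
    have h3 : a ^ 2 * (1 - b ^ 2) = b ^ 2 * (1 - a ^ 2) := by
      rw [← sq_sqrt ha0.le, ← sq_sqrt hb0.le, ← mul_pow, ← mul_pow, h2]
    have h4 : a ^ 2 = b ^ 2 := by nlinarith
    exact (pow_left_inj₀ ha.1.le hb.1.le two_ne_zero).1 h4
  change ∫⁻ x, ENNReal.ofReal ((√(2 * π))⁻¹ * exp (-x ^ 2 / 2)) *
      kerC τ (x, √(x ^ 2 + ρ ^ 2)) = _
  rw [h1, ← himg, lintegral_image_eq_lintegral_abs_deriv_mul measurableSet_Ioo hder hinj]
  refine setLIntegral_congr_fun measurableSet_Ioo fun u hu => ?_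
  have h0 := hw u hu
  have hq := sqrt_pos.2 h0
  have hq2 : √(1 - u ^ 2) ^ 2 = 1 - u ^ 2 := sq_sqrt h0.le
  have h5 : √((ρ * u / √(1 - u ^ 2)) ^ 2 + ρ ^ 2) = ρ / √(1 - u ^ 2) := by
    rw [← sqrt_sq (x := ρ / √(1 - u ^ 2)) (by positivity)]
    congr 1
    rw [div_pow, div_pow, hq2]
    field_simp
    ring
  simp only [g, f]
  rw [h5, abs_of_pos (by positivity), ← mul_assoc, ← ENNReal.ofReal_mul (by positivity),
    ← ENNReal.ofReal_mul (by positivity), mul_comm (ENNReal.ofReal (τ - u)),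
    ← ENNReal.ofReal_mul (by positivity)]
  congr 1
  field_simp

lemma kerC_bound (n : ℕ) {e : EuclideanSpace ℝ (Fin (n + 3))} (he : ‖e‖ = 1) {τ : ℝ}
    (h0 : 0 ≤ τ) (h1 : τ < 1) :
    ∫⁻ x, kerC τ (⟪e, x⟫, ‖x‖) ∂stdGaussian (EuclideanSpace ℝ (Fin (n + 3)))
      = ENNReal.ofReal ((√(2 * π))⁻¹ * ((n + 2) *
        ∫ u in (0 : ℝ)..τ, (τ - u) * √(1 - u ^ 2) ^ n)) := by
  have hs := sqrt_two_pi_pos
  rw [lintegral_split (n + 2) he (measurable_kerC τ)]
  have hm : Measurable fun ρ : ℝ => ∫⁻ t, kerC τ (t, √(t ^ 2 + ρ ^ 2)) ∂gaussianReal 0 1 :=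
    Measurable.lintegral_prod_right (f := fun (ρ t : ℝ) => kerC τ (t, √(t ^ 2 + ρ ^ 2)))
      ((measurable_kerC τ).comp (by fun_prop))
  rw [lintegral_radial (n + 1) hm]
  let K : ℝ → ℝ → ℝ≥0∞ := fun ρ u => ENNReal.ofReal (ρ ^ (n + 1) * exp (-ρ ^ 2 / 2)) *
    (ENNReal.ofReal (τ - u) * ENNReal.ofReal ((√(2 * π))⁻¹ * ρ ^ 2 /
        √(1 - u ^ 2) ^ 4 * exp (-(ρ * u / √(1 - u ^ 2)) ^ 2 / 2)))
  have hK : Measurable (Function.uncurry K) := by
    simp only [K, Function.uncurry_def]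
    fun_prop
  have h2 : ∫⁻ y in Ioi (0 : ℝ), ENNReal.ofReal (y ^ (n + 1) * exp (-y ^ 2 / 2)) *
      ∫⁻ t, kerC τ (t, √(t ^ 2 + y ^ 2)) ∂gaussianReal 0 1
      = ∫⁻ y in Ioi (0 : ℝ), ∫⁻ u in Ioo (0 : ℝ) 1, K y u := by
    refine setLIntegral_congr_fun measurableSet_Ioi fun y hy => ?_
    rw [stepA τ hy, ← lintegral_const_mul' _ _ ENNReal.ofReal_ne_top]
  have h3 : ∀ u ∈ Ioo (0 : ℝ) 1, ∫⁻ y in Ioi (0 : ℝ), K y u
      = ENNReal.ofReal (I (n + 1)) *
        ENNReal.ofReal ((√(2 * π))⁻¹ * (n + 2) * ((τ - u) * √(1 - u ^ 2) ^ n)) := by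
    intro u hu
    have hw : 0 < 1 - u ^ 2 := by nlinarith [hu.1, hu.2]
    have hq := sqrt_pos.2 hw
    have hq2 : √(1 - u ^ 2) ^ 2 = 1 - u ^ 2 := sq_sqrt hw.le
    have h4 : ∀ y ∈ Ioi (0 : ℝ), K y u
        = (ENNReal.ofReal (τ - u) * ENNReal.ofReal ((√(2 * π))⁻¹ / √(1 - u ^ 2) ^ 4)) *
          ENNReal.ofReal (y ^ (n + 3) * exp (-y ^ 2 / (2 * √(1 - u ^ 2) ^ 2))) := by
      intro y hy
      have hy' : (0 : ℝ) < y := hy
      simp only [K]
      rw [mul_left_comm, mul_assoc (ENNReal.ofReal (τ - u))]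
      congr 1
      rw [← ENNReal.ofReal_mul (by positivity), ← ENNReal.ofReal_mul (by positivity)]
      congr 1
      have : -y ^ 2 / (2 * √(1 - u ^ 2) ^ 2) = -y ^ 2 / 2 + -(y * u / √(1 - u ^ 2)) ^ 2 / 2 := by
        rw [div_pow, hq2]; field_simp; ring
      rw [this, exp_add]
      ring
    rw [setLIntegral_congr_fun measurableSet_Ioi h4, lintegral_const_mul _ (by fun_prop),
      lintegral_I _ hq, I_succ (n + 1), mul_assoc, ← ENNReal.ofReal_mul (by positivity),
      ← ENNReal.ofReal_mul (I_pos _).le, mul_comm (ENNReal.ofReal (τ - u)),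
      ← ENNReal.ofReal_mul (by have := I_pos (n + 1); positivity)]
    congr 1
    push_cast
    field_simp
    ring
  rw [h2, lintegral_lintegral_swap hK.aemeasurable, setLIntegral_congr_fun measurableSet_Ioo h3,
    lintegral_const_mul _ (by fun_prop), ← mul_assoc,
    ENNReal.inv_mul_cancel (by simpa using I_pos _) ENNReal.ofReal_ne_top, one_mul]
  have h5 : ∫⁻ u in Ioo (0 : ℝ) 1,
      ENNReal.ofReal ((√(2 * π))⁻¹ * (n + 2) * ((τ - u) * √(1 - u ^ 2) ^ n))
      = ∫⁻ u in Ioc (0 : ℝ) τ,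
      ENNReal.ofReal ((√(2 * π))⁻¹ * (n + 2) * ((τ - u) * √(1 - u ^ 2) ^ n)) := by
    rw [← lintegral_indicator measurableSet_Ioo, ← lintegral_indicator measurableSet_Ioc]
    refine lintegral_congr fun u => ?_
    by_cases hu : u ∈ Ioc (0 : ℝ) τ
    · rw [indicator_of_mem hu, indicator_of_mem (show u ∈ Ioo (0 : ℝ) 1 from
        ⟨hu.1, hu.2.trans_lt h1⟩)]
    · rw [indicator_of_notMem hu]
      by_cases hu' : u ∈ Ioo (0 : ℝ) 1
      · rw [indicator_of_mem hu', ENNReal.ofReal_of_nonpos]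
        have : τ - u ≤ 0 := by
          by_contra hc
          exact hu ⟨hu'.1, by linarith⟩
        exact mul_nonpos_of_nonneg_of_nonpos (by positivity)
          (mul_nonpos_of_nonpos_of_nonneg this (by positivity))
      · rw [indicator_of_notMem hu']
  rw [h5, ← ofReal_integral_eq_lintegral_ofReal, ← intervalIntegral.integral_of_le h0,
    intervalIntegral.integral_const_mul, mul_assoc]
  · exact (Continuous.intervalIntegrable (by fun_prop) 0 τ).1
  · filter_upwards [ae_restrict_mem measurableSet_Ioc] with u hu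
    have : 0 ≤ τ - u := by linarith [hu.2]
    positivity

section half

variable {E : Type*} [NormedAddCommGroup E] [InnerProductSpace ℝ E] [FiniteDimensional ℝ E]
  [MeasurableSpace E] [BorelSpace E]

lemma measurableSet_half (e : E) : MeasurableSet {x : E | 0 < ⟪e, x⟫} :=
  measurableSet_lt measurable_const (by fun_prop)

lemma integral_half_pow {e : E} (he : ‖e‖ = 1) (k : ℕ) :
    ∫ x in {x : E | 0 < ⟪e, x⟫}, ⟪e, x⟫ ^ k ∂stdGaussian E = (√(2 * π))⁻¹ * I k := by
  rw [← integral_gauss_Ioi_pow, ← map_inner_unit he, integral_map (by fun_prop)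
    (Measurable.indicator (by fun_prop) measurableSet_Ioi).aestronglyMeasurable,
    ← integral_indicator (measurableSet_half e)]
  rfl

lemma measure_half {e : E} (he : ‖e‖ = 1) :
    (stdGaussian E).real {x : E | 0 < ⟪e, x⟫} = 1 / 2 := by
  have := integral_half_pow he 0
  have hs := sqrt_two_pi_pos
  simp only [pow_zero, integral_const, I_zero, smul_eq_mul, mul_one] at this
  rw [measureReal_restrict_apply_univ] at this
  rw [this]; field_simp

lemma integral_half {e : E} (he : ‖e‖ = 1) :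
    ∫ x in {x : E | 0 < ⟪e, x⟫}, ⟪e, x⟫ ∂stdGaussian E = (√(2 * π))⁻¹ := by
  simpa [I_one] using integral_half_pow he 1

end half

/-- The cap bound for cones. -/
theorem cap_bound (n : ℕ) {A : Set (EuclideanSpace ℝ (Fin (n + 3)))} (hA : MeasurableSet A)
    (hc : IsCone A) {e : EuclideanSpace ℝ (Fin (n + 3))} (he : ‖e‖ = 1) {τ : ℝ}
    (h0 : 0 ≤ τ) (h1 : τ < 1) :
    √(2 * π) * ∫ x in A, ⟪e, x⟫ ∂stdGaussian (EuclideanSpace ℝ (Fin (n + 3)))
      ≤ 1 + (n + 2) * (∫ u in (0 : ℝ)..τ, (τ - u) * √(1 - u ^ 2) ^ n)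
        - √(2 * π) * (I (n + 3) / I (n + 2)) * τ *
          (1 / 2 - (stdGaussian (EuclideanSpace ℝ (Fin (n + 3)))).real A) := by
  have hs := sqrt_two_pi_pos
  set γ := stdGaussian (EuclideanSpace ℝ (Fin (n + 3))) with hγ
  set B : Set (EuclideanSpace ℝ (Fin (n + 3))) := {x | 0 < ⟪e, x⟫} with hBdef
  have hB : MeasurableSet B := measurableSet_half e
  have hBc : IsCone B := fun x t ht => by
    simp only [hBdef, mem_ofPred_eq, real_inner_smul_right]
    exact mul_pos_iff_of_pos_left ht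
  have hi : Integrable (fun x => ⟪e, x⟫ - τ * ‖x‖) γ :=
    (integrable_inner e).sub (integrable_norm.const_mul τ)
  have hk := kerC_bound n he h0 h1
  have hkm : Measurable fun x : EuclideanSpace ℝ (Fin (n + 3)) => kerC τ (⟪e, x⟫, ‖x‖) :=
    (measurable_kerC τ).comp (by fun_prop)
  have hkne : ∀ p, kerC τ p < ∞ := fun p => by
    unfold kerC; split_ifs <;> simp
  have hki : Integrable (fun x => (kerC τ (⟪e, x⟫, ‖x‖)).toReal) γ :=
    integrable_toReal_of_lintegral_ne_top hkm.aemeasurable (by rw [hk]; exact ENNReal.ofReal_ne_top)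
  have hnn : 0 ≤ ∫ u in (0 : ℝ)..τ, (τ - u) * √(1 - u ^ 2) ^ n :=
    intervalIntegral.integral_nonneg h0 fun u hu => by
      have : 0 ≤ τ - u := by linarith [hu.2]
      positivity
  have hkv : ∫ x, (kerC τ (⟪e, x⟫, ‖x‖)).toReal ∂γ = (√(2 * π))⁻¹ * ((n + 2) *
        ∫ u in (0 : ℝ)..τ, (τ - u) * √(1 - u ^ 2) ^ n) := by
    rw [integral_toReal hkm.aemeasurable (ae_of_all _ fun x => hkne _), hk,
      ENNReal.toReal_ofReal (by positivity)]
  have hle : ∫ x in A, (⟪e, x⟫ - τ * ‖x‖) ∂γ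
      ≤ ∫ x in B, (⟪e, x⟫ - τ * ‖x‖) ∂γ + ∫ x, (kerC τ (⟪e, x⟫, ‖x‖)).toReal ∂γ := by
    rw [← integral_indicator hA, ← integral_indicator hB, ← integral_add (hi.indicator hB) hki]
    refine integral_mono (hi.indicator hA) ((hi.indicator hB).add hki) fun x => ?_
    have hx : 0 ≤ τ * ‖x‖ := by positivity
    have hA' : A.indicator (fun x => ⟪e, x⟫ - τ * ‖x‖) x ≤ max (⟪e, x⟫ - τ * ‖x‖) 0 := by
      by_cases h : x ∈ A
      · rw [indicator_of_mem h]; exact le_max_left _ _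
      · rw [indicator_of_notMem h]; exact le_max_right _ _
    refine hA'.trans ?_
    by_cases h : 0 < ⟪e, x⟫
    · simp only [indicator_of_mem (show x ∈ B from h), kerC, if_pos h, ENNReal.toReal_ofReal']
      rcases le_total ⟪e, x⟫ (τ * ‖x‖) with h' | h'
      · rw [max_eq_right (by linarith), max_eq_left (by linarith)]; linarith
      · rw [max_eq_left (by linarith), max_eq_right (by linarith)]; linarith
    · simp only [indicator_of_notMem (show x ∉ B from h), kerC, if_neg h, ENNReal.toReal_zero]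
      rw [max_eq_right (by linarith)]; simp
  rw [integral_sub (integrable_inner e).integrableOn (integrable_norm.const_mul τ).integrableOn,
    integral_sub (integrable_inner e).integrableOn (integrable_norm.const_mul τ).integrableOn,
    integral_const_mul, integral_const_mul, integral_norm_cone (n + 2) hA hc,
    integral_norm_cone (n + 2) hB hBc, hkv, hBdef, measure_half he, integral_half he] at hle
  have := mul_le_mul_of_nonneg_left hle hs.le
  have e1 : √(2 * π) * (√(2 * π))⁻¹ = 1 := mul_inv_cancel₀ hs.ne'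
  calc _ = √(2 * π) * (∫ x in A, ⟪e, x⟫ ∂γ - τ * (γ.real A * (I (n + 3) / I (n + 2))))
        + √(2 * π) * (τ * (γ.real A * (I (n + 3) / I (n + 2)))) := by ring
    _ ≤ √(2 * π) * ((√(2 * π))⁻¹ - τ * (1 / 2 * (I (n + 3) / I (n + 2))) + (√(2 * π))⁻¹ *
          ((n + 2) * ∫ u in (0 : ℝ)..τ, (τ - u) * √(1 - u ^ 2) ^ n))
        + √(2 * π) * (τ * (γ.real A * (I (n + 3) / I (n + 2)))) := by linarith
    _ = _ := by
      linear_combination (1 + (n + 2) * ∫ u in (0 : ℝ)..τ, (τ - u) * √(1 - u ^ 2) ^ n) * e1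

section iso

variable {E : Type*} [NormedAddCommGroup E] [InnerProductSpace ℝ E] [FiniteDimensional ℝ E]
  [MeasurableSpace E] [BorelSpace E]

lemma bathtub {A : Set E} (hA : MeasurableSet A) {e : E} (he : ‖e‖ = 1) (t : ℝ) {g : ℝ → ℝ}
    (hg : Integrable g (gaussianReal 0 1)) (hg0 : ∀ x, 0 ≤ g x) (hg1 : ∀ x, x - t ≤ g x) :
    ∫ x in A, ⟪e, x⟫ ∂stdGaussian E ≤ t * (stdGaussian E).real A + ∫ x, g x ∂gaussianReal 0 1 := by
  rw [← map_inner_unit he] at hg ⊢
  rw [integral_map (by fun_prop) hg.aestronglyMeasurable]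
  have hg' := (integrable_map_measure hg.aestronglyMeasurable (by fun_prop)).1 hg
  have hi : Integrable (fun x => ⟪e, x⟫ - t) (stdGaussian E) :=
    (integrable_inner e).sub (integrable_const t)
  have hle : ∫ x in A, (⟪e, x⟫ - t) ∂stdGaussian E ≤ ∫ x, g ⟪e, x⟫ ∂stdGaussian E := by
    rw [← integral_indicator hA]
    refine integral_mono (hi.indicator hA) hg' fun x => ?_
    by_cases h : x ∈ A
    · rw [indicator_of_mem h]; exact hg1 _
    · rw [indicator_of_notMem h]; exact hg0 _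
  rw [integral_sub (integrable_inner e).integrableOn (integrable_const t), setIntegral_const,
    smul_eq_mul] at hle
  linarith

/-- The half-space bound. -/
theorem iso_bound {A : Set E} (hA : MeasurableSet A) {e : E} (he : ‖e‖ = 1) {t : ℝ}
    (h0 : 0 ≤ t) :
    √(2 * π) * ∫ x in A, ⟪e, x⟫ ∂stdGaussian E
      ≤ 1 + (∫ u in (0 : ℝ)..t, (t - u) * exp (-u ^ 2 / 2))
        - √(2 * π) * t * (1 / 2 - (stdGaussian E).real A) := by
  have hs := sqrt_two_pi_pos
  have i0 : Integrable ((Ioi (0 : ℝ)).indicator (fun x => x ^ 0)) (gaussianReal 0 1) :=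
    Integrable.indicator (by simp) measurableSet_Ioi
  have i1 : Integrable ((Ioi (0 : ℝ)).indicator (fun x => x ^ 1)) (gaussianReal 0 1) :=
    Integrable.indicator (by simp only [pow_one]; exact IsGaussian.integrable_id)
      measurableSet_Ioi
  have i2 : Integrable ((Ioc (0 : ℝ) t).indicator (fun x => t - x)) (gaussianReal 0 1) :=
    Integrable.indicator ((integrable_const t).sub IsGaussian.integrable_id) measurableSet_Ioc
  have hpt : ∀ x : ℝ, (Ioi (0 : ℝ)).indicator (fun x => x ^ 1) x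
      - t * (Ioi (0 : ℝ)).indicator (fun x => x ^ 0) x
      + (Ioc (0 : ℝ) t).indicator (fun x => t - x) x = max (x - t) 0 := fun x => by
    by_cases h : 0 < x
    · by_cases h' : x ≤ t
      · rw [max_eq_right (by linarith)]; simp [indicator, h, h']
      · rw [max_eq_left (by linarith)]; simp [indicator, h, h']
    · rw [max_eq_right (by linarith)]; simp [indicator, h]
  have h := bathtub hA he t (g := fun x => (Ioi (0 : ℝ)).indicator (fun x => x ^ 1) x
      - t * (Ioi (0 : ℝ)).indicator (fun x => x ^ 0) x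
      + (Ioc (0 : ℝ) t).indicator (fun x => t - x) x) ((i1.sub (i0.const_mul t)).add i2)
      (fun x => by rw [hpt]; exact le_max_right _ _) (fun x => by rw [hpt]; exact le_max_left _ _)
  have i3 : Integrable (fun x => (Ioi (0 : ℝ)).indicator (fun x => x ^ 1) x
      - t * (Ioi (0 : ℝ)).indicator (fun x => x ^ 0) x) (gaussianReal 0 1) :=
    i1.sub (i0.const_mul t)
  rw [integral_add i3 i2, integral_sub i1 (i0.const_mul t),
    integral_const_mul, integral_gauss_Ioi_pow, integral_gauss_Ioi_pow, I_one, I_zero,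
    integral_gauss] at h
  have h2 : ∫ x, exp (-x ^ 2 / 2) * (Ioc (0 : ℝ) t).indicator (fun x => t - x) x
      = ∫ u in (0 : ℝ)..t, (t - u) * exp (-u ^ 2 / 2) := by
    rw [intervalIntegral.integral_of_le h0, ← integral_indicator measurableSet_Ioc]
    refine integral_congr_ae (ae_of_all _ fun x => ?_)
    by_cases hx : x ∈ Ioc (0 : ℝ) t <;> simp [hx, mul_comm]
  rw [h2] at h
  have := mul_le_mul_of_nonneg_left h hs.le
  refine this.trans (le_of_eq ?_)
  field_simp
  ring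

/-- A crude tail bound. -/
theorem tail_bound {A : Set E} (hA : MeasurableSet A) {e : E} (he : ‖e‖ = 1) {t : ℝ}
    (h0 : 0 < t) :
    √(2 * π) * ∫ x in A, ⟪e, x⟫ ∂stdGaussian E
      ≤ 2 / t ^ 3 + √(2 * π) * t * (stdGaussian E).real A := by
  have hs := sqrt_two_pi_pos
  have hi := integrable_exp_mul_gaussianReal (μ := 0) (v := 1) t
  have h := bathtub hA he t (g := fun x => exp (-t ^ 2 - 1) / t * exp (t * x))
    (hi.const_mul _) (fun x => by positivity) (fun x => by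
      rw [div_mul_eq_mul_div, ← exp_add, le_div_iff₀ h0]
      have := add_one_le_exp (-t ^ 2 - 1 + t * x)
      nlinarith)
  have h2 : ∫ x, exp (t * x) ∂gaussianReal 0 1 = exp (t ^ 2 / 2) := by
    have := congrFun (mgf_fun_id_gaussianReal (μ := 0) (v := 1)) t
    simpa [mgf] using this
  rw [integral_const_mul, h2] at h
  have h3 : √(2 * π) ≤ exp 1 := by
    rw [sqrt_le_left (exp_pos 1).le]
    have := exp_one_gt_d9
    have := pi_lt_d2
    nlinarith
  have h4 : √(2 * π) * (exp (-t ^ 2 - 1) / t * exp (t ^ 2 / 2)) ≤ 2 / t ^ 3 := by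
    have h5 : t ^ 2 / 2 ≤ exp (t ^ 2 / 2) := by linarith [add_one_le_exp (t ^ 2 / 2)]
    have h6 : exp 1 * (exp (-t ^ 2 - 1) * exp (t ^ 2 / 2)) * exp (t ^ 2 / 2) = 1 := by
      rw [← exp_add, ← exp_add, ← exp_add, ← exp_zero]; congr 1; ring
    have h7 : 0 < exp (-t ^ 2 - 1) * exp (t ^ 2 / 2) := by positivity
    rw [div_mul_eq_mul_div, ← mul_div_assoc, div_le_div_iff₀ h0 (by positivity)]
    have h8 : √(2 * π) * (exp (-t ^ 2 - 1) * exp (t ^ 2 / 2)) * (t ^ 2 / 2) ≤ 1 := by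
      refine le_trans ?_ h6.le
      gcongr
    nlinarith
  have := mul_le_mul_of_nonneg_left h hs.le
  nlinarith

end iso

end Crest.Agent.R215
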