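import Mathlib

/-! Row 215 (propeller): a verified branch-and-bound checker for the final arithmetic. -/

set_option autoImplicit false

open Finset

namespace Crest.Agent.R215

/-- Certificates. -/
inductive Tr
  | leaf (u : ℤ)
  | emp (j : ℕ)
  | r3 (k : ℕ) (t : Tr)
  | r4 (k : ℕ) (t : Tr)
  | sp (j k : ℕ) (a b : Tr)

/-- Scaled Lagrangian at a node. -/
def gv (y : List ℤ) (u : ℤ) (k : ℕ) : ℤ := 40 * y.getD k 0 - u * ((k : ℤ) * k)

/-- Minimum of the Lagrangian over a range of nodes. -/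
def minr (y : List ℤ) (u : ℤ) : ℕ → ℕ → ℤ
  | 0, a => gv y u a
  | n + 1, a => min (gv y u a) (minr y u n (a + 1))

/-- The checker. -/
def check (y : List ℤ) (m0 : ℕ) (unb : Bool) (f3 f4 : ℕ) : Tr → (ℕ → ℕ) → (ℕ → ℕ) → Bool
  | .leaf u, lo, hi => decide ((∀ j < min m0 6, lo j ≤ hi j ∧ hi j ≤ 134) ∧
      40000000 < u * 40000 + ∑ j ∈ range (min m0 5), minr y u (hi j - lo j) (lo j)
        + ((m0 - 5 : ℕ) : ℤ) * minr y u (hi 5 - lo 5) (lo 5) ∧
      (unb = true → 0 ≤ minr y u (hi 5 - lo 5) (lo 5)))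
  | .emp j, lo, hi => decide (j < min m0 6 ∧ hi j < lo j)
  | .r3 k t, lo, hi => decide (k * k * (400000000 + f3 * (lo 1 * lo 1))
        ≤ f3 * (lo 1 * lo 1) * (lo 2 * lo 2)) &&
      check y m0 unb f3 f4 t (fun j => if 3 ≤ j then max (lo j) k else lo j) hi
  | .r4 k t, lo, hi => decide (k * k * (400000000 + f4 * (lo 2 * lo 2))
        ≤ f4 * (lo 2 * lo 2) * (lo 3 * lo 3)) &&
      check y m0 unb f3 f4 t (fun j => if 4 ≤ j then max (lo j) k else lo j) hi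
  | .sp j k a b, lo, hi => decide (j < min m0 5) &&
      check y m0 unb f3 f4 a lo (fun i => if j ≤ i then min (hi i) k else hi i) &&
      check y m0 unb f3 f4 b (fun i => if i ≤ j then max (lo i) k else lo i) hi

/-- The chord inequalities. -/
def Tab (y : List ℤ) (s p : ℝ) : Prop :=
  ∀ k : ℕ, k < 134 → (k : ℝ) ^ 2 ≤ 40000 * s → 40000 * s ≤ ((k : ℝ) + 1) ^ 2 →
    (((k : ℝ) + 1) ^ 2 - 40000 * s) * (y.getD k 0 : ℤ) + (40000 * s - (k : ℝ) ^ 2) *
      (y.getD (k + 1) 0 : ℤ) ≤ (2 * k + 1) * 1000000 * p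

lemma minr_le_gv (y : List ℤ) (u : ℤ) (n a : ℕ) : minr y u n a ≤ gv y u a := by
  cases n with
  | zero => exact le_rfl
  | succ n => exact min_le_left _ _

lemma chord {y : List ℤ} {s p : ℝ} (h : Tab y s p) (u : ℤ) {k : ℕ} (hk : k < 134)
    (h1 : (k : ℝ) ^ 2 ≤ 40000 * s) (h2 : 40000 * s ≤ ((k : ℝ) + 1) ^ 2) {c : ℝ}
    (c1 : 40000 * s ≠ ((k : ℝ) + 1) ^ 2 → c ≤ gv y u k)
    (c2 : 40000 * s ≠ (k : ℝ) ^ 2 → c ≤ gv y u (k + 1)) : c ≤ 40000000 * p - u * (40000 * s) := by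
  have h3 := h k hk h1 h2
  have e1 : (((k : ℝ) + 1) ^ 2 - 40000 * s) * c
      ≤ (((k : ℝ) + 1) ^ 2 - 40000 * s) * gv y u k := by
    by_cases e : 40000 * s = ((k : ℝ) + 1) ^ 2
    · rw [e]; simp
    · exact mul_le_mul_of_nonneg_left (c1 e) (by linarith)
  have e2 : (40000 * s - (k : ℝ) ^ 2) * c ≤ (40000 * s - (k : ℝ) ^ 2) * gv y u (k + 1) := by
    by_cases e : 40000 * s = (k : ℝ) ^ 2
    · rw [e]; simp
    · exact mul_le_mul_of_nonneg_left (c2 e) (by linarith)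
  simp only [gv] at e1 e2
  push_cast at e1 e2
  have hk0 : (0 : ℝ) < 2 * k + 1 := by positivity
  refine le_of_mul_le_mul_left ?_ hk0
  nlinarith

lemma minr_le {y : List ℤ} {s p : ℝ} (h : Tab y s p) (u : ℤ) :
    ∀ n a : ℕ, a + n ≤ 134 → (a : ℝ) ^ 2 ≤ 40000 * s → 40000 * s ≤ ((a + n : ℕ) : ℝ) ^ 2 →
      (minr y u n a : ℝ) ≤ 40000000 * p - u * (40000 * s) := by
  intro n
  induction n with
  | zero =>
    intro a ha h1 h2
    simp only [add_zero] at ha h2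
    have e : 40000 * s = (a : ℝ) ^ 2 := le_antisymm h2 h1
    rcases lt_or_eq_of_le ha with ha | rfl
    · refine chord h u ha h1 (h2.trans (by gcongr; linarith)) (fun _ => le_rfl)
        (fun h' => absurd e h')
    · refine chord h u (k := 133) (by norm_num) (by rw [e]; norm_num) (by rw [e]; norm_num)
        (fun h' => absurd (by rw [e]; norm_num) h') (fun _ => le_rfl)
  | succ n ih =>
    intro a ha h1 h2
    rcases le_total (40000 * s) (((a : ℝ) + 1) ^ 2) with h3 | h3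
    · refine chord h u (k := a) (by omega) h1 h3 (fun _ => ?_) (fun _ => ?_)
      · exact_mod_cast minr_le_gv y u _ _
      · exact_mod_cast (min_le_right _ _).trans (minr_le_gv y u n (a + 1))
    · refine le_trans ?_ (ih (a + 1) (by omega) (by push_cast; exact h3)
        (by rwa [show a + 1 + n = a + (n + 1) by ring]))
      exact_mod_cast min_le_right _ _

lemma sum_min5 (h : ℕ → ℝ) (m : ℕ) :
    ∑ i ∈ range m, h (min i 5) = ∑ j ∈ range (min m 5), h j + ((m - 5 : ℕ) : ℝ) * h 5 := by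
  induction m with
  | zero => simp
  | succ m ih =>
    rw [sum_range_succ, ih]
    rcases lt_or_ge m 5 with hm | hm
    · rw [min_eq_left hm.le, min_eq_left (by omega : m + 1 ≤ 5), sum_range_succ,
        show m - 5 = 0 by omega, show m + 1 - 5 = 0 by omega]
      ring
    · rw [min_eq_right hm, min_eq_right (by omega : 5 ≤ m + 1),
        show m + 1 - 5 = (m - 5) + 1 by omega]
      push_cast; ring

/-- The data the checker refutes. -/
structure Ctx (y : List ℤ) (m0 : ℕ) (unb : Bool) (f3 f4 : ℕ) (m : ℕ) (s p : ℕ → ℝ) : Prop where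
  hm : m = m0 ∨ (unb = true ∧ m0 ≤ m ∧ 6 ≤ m0)
  h4 : 4 ≤ m0
  anti : ∀ i j, i ≤ j → j < m → s j ≤ s i
  ssum : ∑ i ∈ range m, s i = 1
  psum : ∑ i ∈ range m, p i = 1
  tab : ∀ i < m, Tab y (s i) (p i)
  t3 : ∀ i, 3 ≤ i → i < m → f3 * (s 1 * (s 2 - s i)) ≤ 10000 * s i
  t4 : ∀ i, 4 ≤ i → i < m → f4 * (s 2 * (s 3 - s i)) ≤ 10000 * s i

/-- The box invariant. -/
def Inv (m : ℕ) (s : ℕ → ℝ) (lo hi : ℕ → ℕ) : Prop :=
  ∀ i < m, (lo (min i 5) : ℝ) ^ 2 ≤ 40000 * s i ∧ 40000 * s i ≤ (hi (min i 5) : ℝ) ^ 2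

lemma raise_aux {f a b k : ℕ} {A B x : ℝ} (h : k * k * (400000000 + f * (a * a)) ≤
    f * (a * a) * (b * b)) (hA : (a : ℝ) ^ 2 ≤ 40000 * A) (hB : (b : ℝ) ^ 2 ≤ 40000 * B)
    (hx : f * (A * (B - x)) ≤ 10000 * x) (hxB : x ≤ B) : (k : ℝ) ^ 2 ≤ 40000 * x := by
  have h' : (k : ℝ) * k * (400000000 + f * (a * a)) ≤ f * (a * a) * (b * b) := by exact_mod_cast h
  have hf : (0 : ℝ) ≤ f := f.cast_nonneg
  have h1 : (f : ℝ) * ((a : ℝ) ^ 2 * (B - x)) ≤ f * ((40000 * A) * (B - x)) := by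
    gcongr
  have h2 : (f : ℝ) * (a : ℝ) ^ 2 * (b : ℝ) ^ 2 ≤ f * (a : ℝ) ^ 2 * (40000 * B) := by gcongr
  have h3 : (0 : ℝ) < 400000000 + f * (a * a) := by positivity
  refine le_of_mul_le_mul_right ?_ h3
  nlinarith

lemma sq_max_le {a k : ℕ} {x : ℝ} (ha : (a : ℝ) ^ 2 ≤ x) (hk : (k : ℝ) ^ 2 ≤ x) :
    ((max a k : ℕ) : ℝ) ^ 2 ≤ x := by
  rcases le_total a k with h | h
  · rwa [max_eq_right h]
  · rwa [max_eq_left h]

lemma le_sq_min {a k : ℕ} {x : ℝ} (ha : x ≤ (a : ℝ) ^ 2) (hk : x ≤ (k : ℝ) ^ 2) :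
    x ≤ ((min a k : ℕ) : ℝ) ^ 2 := by
  rcases le_total a k with h | h
  · rwa [min_eq_left h]
  · rwa [min_eq_right h]

theorem check_sound {y : List ℤ} {m0 : ℕ} {unb : Bool} {f3 f4 m : ℕ} {s p : ℕ → ℝ}
    (C : Ctx y m0 unb f3 f4 m s p) :
    ∀ (t : Tr) (lo hi : ℕ → ℕ), check y m0 unb f3 f4 t lo hi = true → Inv m s lo hi → False := by
  have hm0 : m0 ≤ m := by rcases C.hm with h | h <;> omega
  have h4 := C.h4
  intro t
  induction t with
  | leaf u =>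
    intro lo hi hc hI
    simp only [check, decide_eq_true_eq] at hc
    obtain ⟨h1, h2, h3⟩ := hc
    have h5 : ∀ i ∈ range m, (fun j => (minr y u (hi j - lo j) (lo j) : ℝ)) (min i 5)
        ≤ 40000000 * p i - u * (40000 * s i) := by
      intro i hi'
      have hi' := mem_range.1 hi'
      obtain ⟨a1, a2⟩ := h1 (min i 5) (by rcases C.hm with h | h <;> omega)
      exact minr_le (C.tab i hi') u _ _ (by omega) (hI i hi').1
        (by rw [Nat.add_sub_cancel' a1]; exact (hI i hi').2)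
    have h6 := sum_le_sum h5
    rw [sum_min5 (fun j => (minr y u (hi j - lo j) (lo j) : ℝ)), sum_sub_distrib, ← mul_sum, ← mul_sum, ← mul_sum, C.ssum, C.psum] at h6
    have h7 : (40000000 : ℝ) < u * 40000 + ∑ j ∈ range (min m0 5),
        (minr y u (hi j - lo j) (lo j) : ℝ)
        + ((m0 - 5 : ℕ) : ℝ) * minr y u (hi 5 - lo 5) (lo 5) := by exact_mod_cast h2
    rcases C.hm with h | ⟨hu, h, h'⟩
    · subst h; linarith
    · rw [min_eq_right (by omega)] at h6 h7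
      have h8 : (0 : ℝ) ≤ minr y u (hi 5 - lo 5) (lo 5) := by exact_mod_cast h3 hu
      have h9 : ((m0 - 5 : ℕ) : ℝ) ≤ ((m - 5 : ℕ) : ℝ) := by exact_mod_cast (by omega)
      nlinarith [mul_le_mul_of_nonneg_right h9 h8]
  | emp j =>
    intro lo hi hc hI
    simp only [check, decide_eq_true_eq] at hc
    obtain ⟨a1, a2⟩ := hI j (by omega)
    rw [min_eq_left (by omega)] at a1 a2
    have : (hi j : ℝ) ^ 2 < (lo j : ℝ) ^ 2 := by
      have : (hi j : ℝ) < lo j := by exact_mod_cast hc.2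
      gcongr
    linarith
  | r3 k t ih =>
    intro lo hi hc hI
    simp only [check, Bool.and_eq_true, decide_eq_true_eq] at hc
    refine ih _ _ hc.2 fun i hi' => ⟨?_, (hI i hi').2⟩
    split_ifs with h
    · refine sq_max_le (hI i hi').1 (raise_aux hc.1 (hI 1 (by omega)).1 (hI 2 (by omega)).1
        (C.t3 i (by omega) hi') (C.anti 2 i (by omega) hi'))
    · exact (hI i hi').1
  | r4 k t ih =>
    intro lo hi hc hI
    simp only [check, Bool.and_eq_true, decide_eq_true_eq] at hc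
    refine ih _ _ hc.2 fun i hi' => ⟨?_, (hI i hi').2⟩
    split_ifs with h
    · refine sq_max_le (hI i hi').1 (raise_aux hc.1 (hI 2 (by omega)).1 (hI 3 (by omega)).1
        (C.t4 i (by omega) hi') (C.anti 3 i (by omega) hi'))
    · exact (hI i hi').1
  | sp j k a b iha ihb =>
    intro lo hi hc hI
    simp only [check, Bool.and_eq_true, decide_eq_true_eq] at hc
    rcases le_total (40000 * s j) ((k : ℝ) ^ 2) with h | h
    · refine iha _ _ hc.1.2 fun i hi' => ⟨(hI i hi').1, ?_⟩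
      split_ifs with h'
      · refine le_sq_min (hI i hi').2 (le_trans ?_ h)
        linarith [C.anti j i (by omega) hi']
      · exact (hI i hi').2
    · refine ihb _ _ hc.2 fun i hi' => ⟨?_, (hI i hi').2⟩
      split_ifs with h'
      · refine sq_max_le (hI i hi').1 (le_trans h ?_)
        linarith [C.anti i j (by omega) (by omega)]
      · exact (hI i hi').1

/-! ### Tables -/

/-- Twice integrated even polynomial. -/
def Qs {K : Type*} [Field K] (a : ℕ → K) (τ : K) : ℕ → K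
  | 0 => 0
  | k + 1 => Qs a τ k + a k * τ ^ (2 * k + 2) / ((2 * k + 1) * (2 * k + 2))

lemma Qs_cast (a : ℕ → ℚ) (τ : ℚ) (K : ℕ) :
    ((Qs a τ K : ℚ) : ℝ) = Qs (fun k => (a k : ℝ)) τ K := by
  induction K with
  | zero => simp [Qs]
  | succ k ih => simp only [Qs]; push_cast; rw [ih]

/-- One interval of a table. -/
def okRow (y : List ℤ) (t : List ℕ) (a : ℕ → ℚ) (K : ℕ) (d M : ℚ) (tmax rstar : ℕ) (mu : ℚ)
    (k : ℕ) : Prop :=
  if t.getD k 0 = 0 then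
    k + 1 ≤ rstar ∧ (y.getD k 0 : ℚ) ≤ 25 * mu * (k : ℚ) ^ 2 ∧
      (y.getD (k + 1) 0 : ℚ) ≤ 25 * mu * ((k : ℚ) + 1) ^ 2
  else
    t.getD k 0 ≤ tmax ∧ y.getD k 0 ≤ 500000 ∧ y.getD (k + 1) 0 ≤ 500000 ∧
      1 + d * Qs a ((t.getD k 0 : ℚ) / 1000) K - 3 / 400 * (k : ℚ)
        ≤ M * ((t.getD k 0 : ℚ) / 1000) * (1 / 2 - (y.getD k 0 : ℚ) / 1000000) ∧
      1 + d * Qs a ((t.getD k 0 : ℚ) / 1000) K - 3 / 400 * ((k : ℚ) + 1)
        ≤ M * ((t.getD k 0 : ℚ) / 1000) * (1 / 2 - (y.getD (k + 1) 0 : ℚ) / 1000000)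

instance (y : List ℤ) (t : List ℕ) (a : ℕ → ℚ) (K : ℕ) (d M : ℚ) (tmax rstar : ℕ) (mu : ℚ)
    (k : ℕ) : Decidable (okRow y t a K d M tmax rstar mu k) := by
  unfold okRow; infer_instance

theorem tab_sound {y : List ℤ} {t : List ℕ} {a : ℕ → ℚ} {K : ℕ} {d M : ℚ} {tmax rstar : ℕ}
    {mu : ℚ} (h : ∀ k < 134, okRow y t a K d M tmax rstar mu k) (hM : 0 < M) {r p : ℝ}
    (hr : 0 ≤ r)
    (hB : ∀ τ : ℝ, 0 < τ → τ ≤ tmax / 1000 → p ≤ 1 / 2 →
      3 / 2 * r ≤ 1 + d * Qs (fun k => (a k : ℝ)) τ K - M * τ * (1 / 2 - p))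
    (hs : 200 * r ≤ rstar → mu * r ^ 2 ≤ p) : Tab y (r ^ 2) p := by
  intro k hk h1 h2
  have hk0 : (0 : ℝ) ≤ k := k.cast_nonneg
  have a1 : (k : ℝ) ≤ 200 * r := abs_le_of_sq_le_sq' (by nlinarith) (by positivity) |>.2
  have a2 : 200 * r ≤ (k : ℝ) + 1 := abs_le_of_sq_le_sq' (by nlinarith) (by positivity) |>.2
  have b1 : 0 ≤ ((k : ℝ) + 1) ^ 2 - 40000 * r ^ 2 := by linarith
  have b2 : 0 ≤ 40000 * r ^ 2 - (k : ℝ) ^ 2 := by linarith
  have hrow := h k hk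
  unfold okRow at hrow
  split_ifs at hrow with h0
  · obtain ⟨c1, c2, c3⟩ := hrow
    have c1' : (k : ℝ) + 1 ≤ rstar := by exact_mod_cast c1
    have c2' : ((y.getD k 0 : ℤ) : ℝ) ≤ 25 * mu * (k : ℝ) ^ 2 := by exact_mod_cast c2
    have c3' : ((y.getD (k + 1) 0 : ℤ) : ℝ) ≤ 25 * mu * ((k : ℝ) + 1) ^ 2 := by exact_mod_cast c3
    have c4 := hs (by linarith)
    have d1 := mul_le_mul_of_nonneg_left c2' b1
    have d2 := mul_le_mul_of_nonneg_left c3' b2
    have d3 := mul_le_mul_of_nonneg_left c4 (show (0 : ℝ) ≤ (2 * k + 1) * 1000000 by positivity)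
    nlinarith
  · obtain ⟨c1, c2, c3, c4, c5⟩ := hrow
    have c2' : ((y.getD k 0 : ℤ) : ℝ) ≤ 500000 := by exact_mod_cast c2
    have c3' : ((y.getD (k + 1) 0 : ℤ) : ℝ) ≤ 500000 := by exact_mod_cast c3
    rcases le_total p (1 / 2) with hp | hp
    swap
    · have d1 := mul_le_mul_of_nonneg_left c2' b1
      have d2 := mul_le_mul_of_nonneg_left c3' b2
      nlinarith
    set τ : ℚ := (t.getD k 0 : ℚ) / 1000 with hτ
    have hτ0 : (0 : ℝ) < τ := by
      have : 0 < t.getD k 0 := Nat.pos_of_ne_zero h0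
      have : 0 < τ := by rw [hτ]; positivity
      exact_mod_cast this
    have hτ1 : (τ : ℝ) ≤ tmax / 1000 := by
      have : ((t.getD k 0 : ℕ) : ℝ) ≤ tmax := by exact_mod_cast c1
      rw [hτ]; push_cast; linarith
    have e := hB τ hτ0 hτ1 hp
    rw [← Qs_cast] at e
    have c4' : (1 : ℝ) + d * (Qs a τ K : ℚ) - 3 / 400 * (k : ℝ)
        ≤ M * τ * (1 / 2 - ((y.getD k 0 : ℤ) : ℝ) / 1000000) := by
      have := (Rat.cast_le (K := ℝ)).2 c4
      push_cast at this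
      exact this
    have c5' : (1 : ℝ) + d * (Qs a τ K : ℚ) - 3 / 400 * ((k : ℝ) + 1)
        ≤ M * τ * (1 / 2 - ((y.getD (k + 1) 0 : ℤ) : ℝ) / 1000000) := by
      have := (Rat.cast_le (K := ℝ)).2 c5
      push_cast at this
      exact this
    have hB0 : (0 : ℝ) < M * τ := mul_pos (by exact_mod_cast hM) hτ0
    generalize (1 : ℝ) + d * (Qs a τ K : ℚ) = Q at e c4' c5'
    generalize (M : ℝ) * τ = B at e c4' c5' hB0
    have d1 := mul_le_mul_of_nonneg_left c4' b1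
    have d2 := mul_le_mul_of_nonneg_left c5' b2
    have d3 := mul_le_mul_of_nonneg_left e (show (0 : ℝ) ≤ 2 * k + 1 by positivity)
    have d4 := mul_nonneg (sub_nonneg.2 a1) (sub_nonneg.2 a2)
    refine le_of_mul_le_mul_left ?_ hB0
    nlinarith

end Crest.Agent.R215
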