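import Crest.Agent.R215.Struct
import Crest.Agent.R215.Cap
import Crest.Agent.R215.Cert

/-! Row 215 (propeller): the induction step. -/

set_option autoImplicit false
set_option linter.unusedSectionVars false

open MeasureTheory ProbabilityTheory Real Set Metric
open scoped RealInnerProductSpace ENNReal NNReal

noncomputable section

namespace Crest.Agent.R215

lemma int_Qs (a : ℕ → ℝ) (τ : ℝ) (K : ℕ) :
    ∫ u in (0 : ℝ)..τ, (τ - u) * ∑ k ∈ Finset.range K, a k * u ^ (2 * k) = Qs a τ K := by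
  induction K with
  | zero => simp [Qs]
  | succ k ih =>
    simp only [Finset.sum_range_succ, mul_add, Qs]
    rw [intervalIntegral.integral_add (Continuous.intervalIntegrable (by fun_prop) _ _)
      (Continuous.intervalIntegrable (by fun_prop) _ _), ih]
    congr 1
    have : ∀ u : ℝ, (τ - u) * (a k * u ^ (2 * k)) = a k * τ * u ^ (2 * k) - a k * u ^ (2 * k + 1) :=
      fun u => by ring
    simp only [this]
    rw [intervalIntegral.integral_sub (Continuous.intervalIntegrable (by fun_prop) _ _)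
      (Continuous.intervalIntegrable (by fun_prop) _ _), intervalIntegral.integral_const_mul,
      intervalIntegral.integral_const_mul, integral_pow, integral_pow]
    push_cast
    field_simp
    ring

lemma int_le_Qs {W : ℝ → ℝ} (hW : Continuous W) (a : ℕ → ℝ) {τ : ℝ} (h0 : 0 ≤ τ) (K : ℕ)
    (h : ∀ u, 0 ≤ u → u ≤ τ → W u ≤ ∑ k ∈ Finset.range K, a k * u ^ (2 * k)) :
    ∫ u in (0 : ℝ)..τ, (τ - u) * W u ≤ Qs a τ K := by
  rw [← int_Qs]
  refine intervalIntegral.integral_mono_on h0 (Continuous.intervalIntegrable (by fun_prop) _ _)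
    (Continuous.intervalIntegrable (by fun_prop) _ _) fun u hu => ?_
  exact mul_le_mul_of_nonneg_left (h u hu.1 hu.2) (by linarith [hu.2])

/-- Taylor polynomials of `exp (-y)`. -/
def Tn (n : ℕ) (y : ℝ) : ℝ := ∑ k ∈ Finset.range (n + 1), (-y) ^ k / k.factorial

lemma hasDerivAt_Tn (n : ℕ) (y : ℝ) : HasDerivAt (Tn (n + 1)) (-Tn n y) y := by
  have key : ∀ k : ℕ, HasDerivAt (fun y : ℝ => (-y) ^ (k + 1) / (k + 1).factorial)
      (-((-y) ^ k / k.factorial)) y := fun k => by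
    have := (((hasDerivAt_id y).neg).pow (k + 1)).div_const ((k + 1).factorial : ℝ)
    refine this.congr_deriv ?_
    rw [Nat.factorial_succ]
    simp only [id, Pi.neg_apply, Nat.add_sub_cancel]
    push_cast
    field_simp
  have h := (HasDerivAt.fun_sum (u := Finset.range (n + 1)) fun k _ => key k).add_const 1
  unfold Tn
  rw [← Finset.sum_neg_distrib]
  refine h.congr_of_eventuallyEq (Filter.Eventually.of_forall fun x => ?_)
  simp only
  rw [Finset.sum_range_succ' _ (n + 1)]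
  simp

lemma Tn_zero (n : ℕ) : Tn n 0 = 1 := by
  unfold Tn
  rw [Finset.sum_range_succ']
  simp

lemma Tn_sign (n : ℕ) : ∀ y : ℝ, 0 ≤ y → 0 ≤ (-1) ^ n * (Tn n y - exp (-y)) := by
  induction n with
  | zero =>
    intro y hy
    have : exp (-y) ≤ 1 := exp_le_one_iff.2 (by linarith)
    simp [Tn, this]
  | succ n ih =>
    intro y hy
    have hd : ∀ x, HasDerivAt (fun x => (-1 : ℝ) ^ (n + 1) * (Tn (n + 1) x - exp (-x)))
        ((-1) ^ n * (Tn n x - exp (-x))) x := fun x => by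
      have := ((hasDerivAt_Tn n x).sub (hasDerivAt_id x).neg.exp).const_mul ((-1 : ℝ) ^ (n + 1))
      refine this.congr_deriv ?_
      simp only [id, Pi.neg_apply]
      ring
    have hmono := monotoneOn_of_deriv_nonneg (convex_Ici (0 : ℝ))
      (fun x _ => (hd x).continuousAt.continuousWithinAt)
      (fun x _ => (hd x).differentiableAt.differentiableWithinAt)
      (fun x hx => by rw [(hd x).deriv]; exact ih x (le_of_lt (by simpa using hx)))
    have := hmono (mem_Ici.2 le_rfl) (mem_Ici.2 hy) hy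
    simpa [Tn_zero] using this

lemma exp_le_a0 (u : ℝ) :
    exp (-u ^ 2 / 2) ≤ ∑ k ∈ Finset.range 21, (a0 k : ℝ) * u ^ (2 * k) := by
  have h := Tn_sign 20 (u ^ 2 / 2) (by positivity)
  have h2 : Tn 20 (u ^ 2 / 2) = ∑ k ∈ Finset.range 21, (a0 k : ℝ) * u ^ (2 * k) := by
    refine Finset.sum_congr rfl fun k _ => ?_
    simp only [a0]
    push_cast
    rw [neg_pow, pow_mul, div_pow]
    field_simp
  rw [h2, ← neg_div] at h
  norm_num at h
  linarith

lemma sqrt_two_pi_bounds : 25066 / 10000 ≤ √(2 * π) ∧ √(2 * π) ≤ 25067 / 10000 := by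
  constructor
  · refine le_sqrt_of_sq_le ?_
    linarith [pi_gt_d6]
  · rw [sqrt_le_left (by norm_num)]
    linarith [pi_lt_d6]

variable {M : ℕ} {lam : ℝ}

section general

variable {E : Type*} [NormedAddCommGroup E] [InnerProductSpace ℝ E] [FiniteDimensional ℝ E]
  [MeasurableSpace E] [BorelSpace E] {v : Fin (M + 1) → E}

lemma Crit.norm_lt (h : Crit v lam) (i : Fin (M + 1)) : ‖v i‖ < 2 / 3 := by
  obtain ⟨e, he, h1⟩ := h.dir i
  have := iso_bound ((isPart_cell v).meas i) he le_rfl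
  simp only [intervalIntegral.integral_same, mul_zero, zero_mul] at this
  linarith

lemma Crit.tab_iso (h : Crit v lam) (i : Fin (M + 1)) :
    Tab y0 (‖v i‖ ^ 2) ((stdGaussian E).real (cell v i)) := by
  obtain ⟨e, he, h1⟩ := h.dir i
  have hr := h.norm_pos i
  obtain ⟨s1, s2⟩ := sqrt_two_pi_bounds
  have hp : 0 ≤ (stdGaussian E).real (cell v i) := measureReal_nonneg
  refine tab_sound tab0 (by norm_num) hr.le (fun τ h0 _ hp' => ?_) (fun hs => ?_)
  · have h2 := iso_bound ((isPart_cell v).meas i) he h0.le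
    have h3 := int_le_Qs (W := fun u => exp (-u ^ 2 / 2)) (by fun_prop) (fun k => (a0 k : ℝ))
      h0.le 21 fun u _ _ => exp_le_a0 u
    have h4 : 25066 / 10000 * τ * (1 / 2 - (stdGaussian E).real (cell v i))
        ≤ √(2 * π) * τ * (1 / 2 - (stdGaussian E).real (cell v i)) := by
      gcongr
    push_cast
    linarith
  · have h2 := tail_bound ((isPart_cell v).meas i) he (t := 1 / (4 * ‖v i‖)) (by positivity)
    have h3 : 2 / (1 / (4 * ‖v i‖)) ^ 3 = 128 * ‖v i‖ ^ 3 := by field_simp; ring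
    have h4 : √(2 * π) * (1 / (4 * ‖v i‖)) * (stdGaussian E).real (cell v i)
        ≤ 25067 / 10000 * (1 / (4 * ‖v i‖)) * (stdGaussian E).real (cell v i) := by gcongr
    have h5 : 3 / 2 * ‖v i‖ - 128 * ‖v i‖ ^ 3
        ≤ 25067 / 10000 * (1 / (4 * ‖v i‖)) * (stdGaussian E).real (cell v i) := by linarith
    have h6 := mul_le_mul_of_nonneg_left h5 hr.le
    have h7 : ‖v i‖ * (25067 / 10000 * (1 / (4 * ‖v i‖)) * (stdGaussian E).real (cell v i))
        = 25067 / 40000 * (stdGaussian E).real (cell v i) := by field_simp; ring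
    push_cast at hs ⊢
    have h8 : ‖v i‖ ^ 2 ≤ 1 / 400 := by nlinarith
    nlinarith [mul_le_mul_of_nonneg_left h8 (sq_nonneg ‖v i‖)]

lemma conv_T {f b X s : ℝ} {n : ℕ} (hX : 0 ≤ X) (hf : 0 ≤ f) (hb : 0 < b)
    (h : 16 * π ^ 2 * (f * X) ≤ 6561 * b ^ 4 * s) (hn : n * 6561 * b ^ 4 ≤ 1579136 * f) :
    n * X ≤ 10000 * s := by
  have h1 : 98696 / 10000 ≤ π ^ 2 := by nlinarith [pi_gt_d6]
  have h2 : 16 * (98696 / 10000) * (f * X) ≤ 16 * π ^ 2 * (f * X) := by gcongr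
  have h3 := mul_le_mul_of_nonneg_right hn hX
  refine le_of_mul_le_mul_left ?_ (show 0 < 6561 * b ^ 4 by positivity)
  nlinarith

theorem Crit.refute (h : Crit v lam) {y : List ℤ} {m0 : ℕ} {unb : Bool} {f3 f4 : ℕ}
    (hm : M + 1 = m0 ∨ (unb = true ∧ m0 ≤ M + 1 ∧ 6 ≤ m0)) (h4 : 4 ≤ m0)
    (htab : ∀ i, Tab y (‖v i‖ ^ 2) ((stdGaussian E).real (cell v i))) {b3 b4 f : ℝ}
    (hb3 : ((M : ℝ) - 1) / (2 * M) + 1 / 3 ≤ b3) (hb4 : ((M : ℝ) - 1) / (2 * M) + 1 / 4 ≤ b4)
    (hf : f = 3 ∨ (f = 27 / 4 ∧ M = 3)) (n3 : f3 * 6561 * b3 ^ 4 ≤ 1579136 * f)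
    (n4 : f4 * 6561 * b4 ^ 4 ≤ 1579136 * 3) {t : Tr} {hi : ℕ → ℕ}
    (hc : check y m0 unb f3 f4 t (fun _ => 0) hi = true)
    (hhi : ∀ j, hi j = 134 ∨ (M ≤ j ∧ hi j = 64 ∧ ∃ i, ‖v i‖ ^ 2 ≤ 1024 / 10000)) : False := by
  have hM := h.three
  have hM1 : (1 : ℝ) ≤ M := by exact_mod_cast (by omega : 1 ≤ M)
  have h0 : 0 ≤ ((M : ℝ) - 1) / (2 * M) := div_nonneg (by linarith) (by linarith)
  let σ := Tuple.sort (fun i => -‖v i‖ ^ 2)
  have hσ : ∀ i j : Fin (M + 1), i ≤ j → ‖v (σ j)‖ ^ 2 ≤ ‖v (σ i)‖ ^ 2 := fun i j hij =>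
    neg_le_neg_iff.1 (Tuple.monotone_sort (fun i => -‖v i‖ ^ 2) hij)
  let s : ℕ → ℝ := fun k => if hk : k < M + 1 then ‖v (σ ⟨k, hk⟩)‖ ^ 2 else 0
  let p : ℕ → ℝ := fun k =>
    if hk : k < M + 1 then (stdGaussian E).real (cell v (σ ⟨k, hk⟩)) else 0
  have hs : ∀ k (hk : k < M + 1), s k = ‖v (σ ⟨k, hk⟩)‖ ^ 2 := fun k hk => dif_pos hk
  have hp : ∀ k (hk : k < M + 1), p k = (stdGaussian E).real (cell v (σ ⟨k, hk⟩)) :=
    fun k hk => dif_pos hk
  have hne : ∀ {a b : ℕ} (ha : a < M + 1) (hb : b < M + 1), a ≠ b → σ ⟨a, ha⟩ ≠ σ ⟨b, hb⟩ :=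
    fun ha hb hab => σ.injective.ne (Fin.ne_of_val_ne hab)
  have hf0 : 0 ≤ f := by rcases hf with rfl | ⟨rfl, _⟩ <;> norm_num
  have C : Ctx y m0 unb f3 f4 (M + 1) s p :=
    { hm := hm
      h4 := h4
      anti := fun i j hij hj => by
        rw [hs j hj, hs i (by omega)]
        exact hσ _ _ hij
      ssum := by
        rw [Finset.sum_range, ← h.hsum, ← Equiv.sum_comp σ (fun i => ‖v i‖ ^ 2)]
        exact Finset.sum_congr rfl fun i _ => hs i i.2
      psum := by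
        rw [Finset.sum_range, ← (isPart_cell v).sum_measure,
          ← Equiv.sum_comp σ (fun i => (stdGaussian E).real (cell v i))]
        exact Finset.sum_congr rfl fun i _ => hp i i.2
      tab := fun i hi => by rw [hs i hi, hp i hi]; exact htab _
      t3 := fun i h3 hi => by
        rw [hs i hi, hs 1 (by omega), hs 2 (by omega)]
        have o3 := hσ ⟨2, by omega⟩ ⟨i, hi⟩ (by simp only [Fin.mk_le_mk]; omega)
        refine conv_T (mul_nonneg (sq_nonneg _) (by linarith)) hf0 (by linarith)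
          (h.T3 (j := σ ⟨0, by omega⟩) (hne _ _ (by omega)) (hne _ _ (by omega))
            (hne _ _ (by omega)) (hne _ _ (by omega)) (hne _ _ (by omega)) (hne _ _ (by omega))
            hb3 (hσ _ _ (by simp)) (hσ _ _ (by simp)) o3 hf) n3
      t4 := fun i h3 hi => by
        rw [hs i hi, hs 2 (by omega), hs 3 (by omega)]
        have o3 := hσ ⟨3, by omega⟩ ⟨i, hi⟩ (by simp only [Fin.mk_le_mk]; omega)
        refine conv_T (mul_nonneg (sq_nonneg _) (by linarith)) (by norm_num) (by linarith)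
          (h.T4 (j := σ ⟨0, by omega⟩) (k := σ ⟨1, by omega⟩) (hne _ _ (by omega))
            (hne _ _ (by omega)) (hne _ _ (by omega)) (hne _ _ (by omega)) (hne _ _ (by omega))
            (hne _ _ (by omega)) (hne _ _ (by omega)) (hne _ _ (by omega)) (hne _ _ (by omega))
            (hne _ _ (by omega)) hb4 (hσ _ _ (by simp)) (hσ _ _ (by simp)) (hσ _ _ (by simp))
            o3) n4 }
  refine check_sound C t _ _ hc fun i hi' => ⟨?_, ?_⟩
  · rw [hs i hi']; simp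
  · rw [hs i hi']
    rcases hhi (min i 5) with h1 | ⟨h1, h2, j, hj⟩
    · rw [h1]
      have := h.norm_lt (σ ⟨i, hi'⟩)
      have := norm_nonneg (v (σ ⟨i, hi'⟩))
      push_cast
      nlinarith
    · rw [h2]
      have := hσ (σ.symm j) ⟨i, hi'⟩ (by
        have := (σ.symm j).2
        rw [Fin.le_def]; simp only; omega)
      rw [σ.apply_symm_apply] at this
      push_cast
      linarith

end general

lemma Crit.tab_cap {n : ℕ} {v : Fin (M + 1) → EuclideanSpace ℝ (Fin (n + 3))} (h : Crit v lam)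
    {y : List ℤ} {t : List ℕ} {a : ℕ → ℚ} {K : ℕ} {d Mq : ℚ}
    (htab : ∀ k < 134, okRow y t a K d Mq 999 1 0 k) (hd : (d : ℝ) = n + 2) (hM0 : 0 < Mq)
    (hM : (Mq : ℝ) ≤ √(2 * π) * (I (n + 3) / I (n + 2)))
    (hW : ∀ u : ℝ, 0 ≤ u → u ≤ 1 → √(1 - u ^ 2) ^ n ≤ ∑ k ∈ Finset.range K, (a k : ℝ) * u ^ (2 * k))
    (i : Fin (M + 1)) : Tab y (‖v i‖ ^ 2) ((stdGaussian _).real (cell v i)) := by
  obtain ⟨e, he, h1⟩ := h.dir i
  refine tab_sound htab hM0 (norm_nonneg _) (fun τ h0 h1' hp' => ?_) (fun _ => by simp)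
  have hτ : τ < 1 := by push_cast at h1'; linarith
  have h2 := cap_bound n ((isPart_cell v).meas i) (isCone_cell v i) he h0.le hτ
  have h3 := int_le_Qs (W := fun u => √(1 - u ^ 2) ^ n) (by fun_prop) (fun k => (a k : ℝ))
    h0.le K fun u hu hu' => hW u hu (by linarith)
  have h4 : Mq * τ * (1 / 2 - (stdGaussian _).real (cell v i))
      ≤ √(2 * π) * (I (n + 3) / I (n + 2)) * τ * (1 / 2 - (stdGaussian _).real (cell v i)) := by
    gcongr
  have h5 := mul_le_mul_of_nonneg_left h3 (show (0 : ℝ) ≤ n + 2 by positivity)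
  rw [hd]
  linarith

lemma I2 : I 2 = √(2 * π) / 2 := by rw [I_succ 0, I_zero]; norm_num
lemma I3 : I 3 = 2 := by rw [I_succ 1, I_one]; norm_num
lemma I4 : I 4 = 3 * √(2 * π) / 2 := by rw [I_succ 2, I2]; norm_num; ring
lemma I5 : I 5 = 8 := by rw [I_succ 3, I3]; norm_num
lemma I6 : I 6 = 15 * √(2 * π) / 2 := by rw [I_succ 4, I4]; norm_num; ring
lemma I7 : I 7 = 48 := by rw [I_succ 5, I5]; norm_num
lemma I8 : I 8 = 105 * √(2 * π) / 2 := by rw [I_succ 6, I6]; norm_num; ring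
lemma I9 : I 9 = 384 := by rw [I_succ 7, I7]; norm_num

lemma M3 : √(2 * π) * (I 3 / I 2) = 4 := by
  have := sqrt_two_pi_pos; rw [I2, I3]; field_simp; norm_num
lemma M4 : 47123 / 10000 ≤ √(2 * π) * (I 4 / I 3) := by
  rw [I3, I4]; nlinarith [sq_sqrt_two_pi, pi_gt_d6]
lemma M5 : √(2 * π) * (I 5 / I 4) = 16 / 3 := by
  have := sqrt_two_pi_pos; rw [I4, I5]; field_simp; norm_num
lemma M7 : √(2 * π) * (I 7 / I 6) = 32 / 5 := by
  have := sqrt_two_pi_pos; rw [I6, I7]; field_simp; norm_num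
lemma M9 : √(2 * π) * (I 9 / I 8) = 256 / 35 := by
  have := sqrt_two_pi_pos; rw [I8, I9]; field_simp; norm_num

lemma sqrt_pow_even {u : ℝ} (h0 : 0 ≤ u) (h1 : u ≤ 1) (k : ℕ) :
    √(1 - u ^ 2) ^ (2 * k) = (1 - u ^ 2) ^ k := by
  rw [pow_mul, sq_sqrt (by nlinarith)]

lemma tab_2 {v : Fin (M + 1) → EuclideanSpace ℝ (Fin 3)} (h : Crit v lam) (i : Fin (M + 1)) :
    Tab y2 (‖v i‖ ^ 2) ((stdGaussian _).real (cell v i)) :=
  Crit.tab_cap (n := 0) h tab2 (by norm_num) (by norm_num) (by rw [M3]; norm_num)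
    (fun u _ _ => by simp [a2]) i

lemma tab_3 {v : Fin (M + 1) → EuclideanSpace ℝ (Fin 4)} (h : Crit v lam) (i : Fin (M + 1)) :
    Tab y3 (‖v i‖ ^ 2) ((stdGaussian _).real (cell v i)) :=
  Crit.tab_cap (n := 1) h tab3 (by norm_num) (by norm_num) (by push_cast; exact M4)
    (fun u h0 h1 => by
      have hw0 : 0 ≤ u ^ 2 := sq_nonneg u
      have hw1 : u ^ 2 ≤ 1 := by nlinarith
      have e : ∑ k ∈ Finset.range 5, (a3 k : ℝ) * u ^ (2 * k)
          = 1 - u ^ 2 / 2 - (u ^ 2) ^ 2 / 8 - (u ^ 2) ^ 3 / 16 - 5 * (u ^ 2) ^ 4 / 128 := by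
        simp [Finset.sum_range_succ, a3]; ring
      rw [e, pow_one]
      generalize u ^ 2 = w at hw0 hw1
      have p2 : w ^ 2 ≤ 1 := pow_le_one₀ hw0 hw1
      have p3 : w ^ 3 ≤ 1 := pow_le_one₀ hw0 hw1
      have p4 : w ^ 4 ≤ 1 := pow_le_one₀ hw0 hw1
      rw [sqrt_le_left (by linarith)]
      have : (1 - w / 2 - w ^ 2 / 8 - w ^ 3 / 16 - 5 * w ^ 4 / 128) ^ 2 = 1 - w +
          w ^ 5 * (7 / 128 + 7 / 512 * w + 5 / 1024 * w ^ 2 + 25 / 16384 * w ^ 3) := by ring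
      rw [this]
      have : 0 ≤ w ^ 5 * (7 / 128 + 7 / 512 * w + 5 / 1024 * w ^ 2 + 25 / 16384 * w ^ 3) := by
        positivity
      linarith) i

lemma tab_4 {v : Fin (M + 1) → EuclideanSpace ℝ (Fin 5)} (h : Crit v lam) (i : Fin (M + 1)) :
    Tab y4 (‖v i‖ ^ 2) ((stdGaussian _).real (cell v i)) :=
  Crit.tab_cap (n := 2) h tab4 (by norm_num) (by norm_num) (by rw [M5]; norm_num)
    (fun u h0 h1 => by
      rw [sqrt_pow_even h0 h1 1]
      simp [Finset.sum_range_succ, a4]) i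

lemma tab_6 {v : Fin (M + 1) → EuclideanSpace ℝ (Fin 7)} (h : Crit v lam) (i : Fin (M + 1)) :
    Tab y6 (‖v i‖ ^ 2) ((stdGaussian _).real (cell v i)) :=
  Crit.tab_cap (n := 4) h tab6 (by norm_num) (by norm_num) (by rw [M7]; norm_num)
    (fun u h0 h1 => by
      rw [sqrt_pow_even h0 h1 2]
      simp [Finset.sum_range_succ, a6]; linarith) i

lemma tab_8 {v : Fin (M + 1) → EuclideanSpace ℝ (Fin 9)} (h : Crit v lam) (i : Fin (M + 1)) :
    Tab y8 (‖v i‖ ^ 2) ((stdGaussian _).real (cell v i)) :=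
  Crit.tab_cap (n := 6) h tab8 (by norm_num) (by norm_num) (by rw [M9]; norm_num)
    (fun u h0 h1 => by
      rw [sqrt_pow_even h0 h1 3]
      simp [Finset.sum_range_succ, a8]; linarith) i

lemma tangent {v : Fin (3 + 1) → EuclideanSpace ℝ (Fin 3)} (h : Crit v lam)
    (hs : ∀ i, 1024 / 10000 < ‖v i‖ ^ 2) : False := by
  have key : ∀ i, 1 / 16 + 3 / 4 * ‖v i‖ ^ 2 < (stdGaussian _).real (cell v i) := by
    intro i
    obtain ⟨e, he, h1⟩ := h.dir i
    have hr := h.norm_lt i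
    have hr0 := norm_nonneg (v i)
    have hr1 : 32 / 100 < ‖v i‖ := lt_of_pow_lt_pow_left₀ 2 hr0 (by linarith [hs i])
    have h2 := cap_bound 0 ((isPart_cell v).meas i) (isCone_cell v i) he
      (τ := 7 / 8 - 3 / 2 * ‖v i‖ ^ 2) (by nlinarith) (by nlinarith)
    have h3 := int_Qs (fun _ => 1) (7 / 8 - 3 / 2 * ‖v i‖ ^ 2) 1
    simp only [Finset.sum_range_one, mul_zero, pow_zero, mul_one, Qs] at h3
    simp only [pow_zero, mul_one, zero_add, M3, h3] at h2
    by_contra hc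
    push Not at hc
    have h4 : 0 ≤ 7 / 8 - 3 / 2 * ‖v i‖ ^ 2 := by nlinarith
    have h5 := mul_le_mul_of_nonneg_left hc h4
    have h6 : 0 ≤ (‖v i‖ - 1 / 2) ^ 2 * (9 / 4 * ‖v i‖ ^ 2 + 9 / 4 * ‖v i‖ - 15 / 16) :=
      mul_nonneg (sq_nonneg _) (by nlinarith)
    push_cast at h2
    nlinarith
  have h1 := Finset.sum_lt_sum_of_nonempty Finset.univ_nonempty fun i _ => key i
  rw [(isPart_cell v).sum_measure, Finset.sum_add_distrib, ← Finset.mul_sum, h.hsum] at h1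
  norm_num at h1

theorem bnd_succ (hM : 3 ≤ M) (hb : Bnd M) : Bnd (M + 1) := by
  by_contra hc
  have crit : ∀ n, M ≤ n → ∃ (v : Fin (M + 1) → EuclideanSpace ℝ (Fin n)) (lam : ℝ),
      Crit v lam := fun n hn => by
    obtain ⟨v, lam, h1, h2, h3⟩ := exists_critical hn hc
    exact ⟨v, lam, hb, hM, h1, h2, h3⟩
  rcases le_or_gt 10 M with h10 | h10
  · obtain ⟨v, lam, h⟩ := crit M le_rfl
    have hM1 : (0 : ℝ) < M := by positivity
    have : ((M : ℝ) - 1) / (2 * M) ≤ 1 / 2 := by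
      rw [div_le_iff₀ (by positivity)]; linarith
    exact h.refute (Or.inr ⟨rfl, by omega, by omega⟩) (by norm_num) h.tab_iso (b3 := 5 / 6)
      (b4 := 3 / 4) (by linarith) (by linarith) (Or.inl rfl) (by norm_num) (by norm_num) chk11
      fun _ => Or.inl rfl
  interval_cases M
  · obtain ⟨v, lam, h⟩ := crit 3 le_rfl
    by_cases hs : ∃ i, ‖v i‖ ^ 2 ≤ 1024 / 10000
    · refine h.refute (Or.inl rfl) (by norm_num) (tab_2 h) (b3 := 2 / 3) (b4 := 7 / 12)
        (by norm_num) (by norm_num) (Or.inr ⟨rfl, rfl⟩) (by norm_num) (by norm_num) chk4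
        fun j => ?_
      by_cases hj : 3 ≤ j
      · exact Or.inr ⟨hj, if_pos hj, hs⟩
      · exact Or.inl (if_neg hj)
    · push Not at hs
      exact tangent h hs
  · obtain ⟨v, lam, h⟩ := crit 4 le_rfl
    exact h.refute (Or.inl rfl) (by norm_num) (tab_3 h) (b3 := 17 / 24) (b4 := 5 / 8)
      (by norm_num) (by norm_num) (Or.inl rfl) (by norm_num) (by norm_num) chk5
      fun _ => Or.inl rfl
  · obtain ⟨v, lam, h⟩ := crit 5 le_rfl
    exact h.refute (Or.inl rfl) (by norm_num) (tab_4 h) (b3 := 11 / 15) (b4 := 13 / 20)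
      (by norm_num) (by norm_num) (Or.inl rfl) (by norm_num) (by norm_num) chk6
      fun _ => Or.inl rfl
  · obtain ⟨v, lam, h⟩ := crit 7 (by norm_num)
    exact h.refute (Or.inl rfl) (by norm_num) (tab_6 h) (b3 := 3 / 4) (b4 := 2 / 3)
      (by norm_num) (by norm_num) (Or.inl rfl) (by norm_num) (by norm_num) chk7
      fun _ => Or.inl rfl
  · obtain ⟨v, lam, h⟩ := crit 7 le_rfl
    exact h.refute (Or.inl rfl) (by norm_num) (tab_6 h) (b3 := 16 / 21) (b4 := 19 / 28)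
      (by norm_num) (by norm_num) (Or.inl rfl) (by norm_num) (by norm_num) chk8
      fun _ => Or.inl rfl
  · obtain ⟨v, lam, h⟩ := crit 9 (by norm_num)
    exact h.refute (Or.inl rfl) (by norm_num) (tab_8 h) (b3 := 37 / 48) (b4 := 11 / 16)
      (by norm_num) (by norm_num) (Or.inl rfl) (by norm_num) (by norm_num) chk9
      fun _ => Or.inl rfl
  · obtain ⟨v, lam, h⟩ := crit 9 le_rfl
    exact h.refute (Or.inl rfl) (by norm_num) (tab_8 h) (b3 := 7 / 9) (b4 := 25 / 36)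
      (by norm_num) (by norm_num) (Or.inl rfl) (by norm_num) (by norm_num) chk10
      fun _ => Or.inl rfl

theorem bnd_all (k : ℕ) : Bnd (k + 3) := by
  induction k with
  | zero => exact bnd_three
  | succ k ih => exact bnd_succ (by omega) ih

theorem propeller {E : Type*} [NormedAddCommGroup E] [InnerProductSpace ℝ E]
    [FiniteDimensional ℝ E] [MeasurableSpace E] [BorelSpace E] {ι : Type*} [Fintype ι]
    {A : ι → Set E} (hA : IsPart A) :
    ∑ i, ‖∫ x in A i, x ∂stdGaussian E‖ ^ 2 ≤ 9 / (8 * π) := by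
  have : Nonempty ι := by
    obtain ⟨i, _⟩ := mem_iUnion.1 (hA.cov ▸ mem_univ (0 : E))
    exact ⟨i⟩
  set z : ι → E := fun i => ∫ x in A i, x ∂stdGaussian E with hz
  have h1 : ∑ i, ⟪z i, z i⟫ ≤ Fm z := hA.sum_le z id
  simp only [real_inner_self_eq_norm_sq] at h1
  have h2 := (bnd_all (Fintype.card ι)).general (by omega) z
  have h3 : 0 ≤ ∑ i, ‖z i‖ ^ 2 := by positivity
  have h4 : cc ^ 2 = 9 / (8 * π) := by
    unfold cc
    rw [div_pow, mul_pow, sq_sqrt_two_pi]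
    ring
  rw [← h4]
  nlinarith [sq_sqrt h3, sq_nonneg (cc - √(∑ i, ‖z i‖ ^ 2))]

end Crest.Agent.R215
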