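import Crest.Agent.R215.Gauss

/-! Row 215 (propeller): the three-vector estimate. -/

set_option autoImplicit false
set_option linter.unusedSectionVars false

open MeasureTheory ProbabilityTheory Real Set
open scoped RealInnerProductSpace ENNReal NNReal

noncomputable section

namespace Crest.Agent.R215

/-- Tail integral operator. -/
def Tl (ψ : ℝ → ℝ≥0∞) (y : ℝ) : ℝ≥0∞ := ∫⁻ x in Ioi (0 : ℝ), ψ (x + y)

lemma measurable_Tl {ψ : ℝ → ℝ≥0∞} (hψ : Measurable ψ) : Measurable (Tl ψ) := by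
  unfold Tl
  exact Measurable.lintegral_prod_right (f := fun y x => ψ (x + y)) (by fun_prop)

lemma Tl_eq (ψ : ℝ → ℝ≥0∞) (y : ℝ) : Tl ψ y = ∫⁻ u, (Ioi y).indicator ψ u := by
  unfold Tl
  rw [← lintegral_add_right_eq_self ((Ioi y).indicator ψ) y,
    ← lintegral_indicator measurableSet_Ioi]
  refine lintegral_congr fun x => ?_
  by_cases hx : 0 < x
  · rw [indicator_of_mem (by simpa using hx), indicator_of_mem (by simpa using hx)]
  · rw [indicator_of_notMem (by simpa using hx), indicator_of_notMem (by simpa using hx)]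

lemma conv_Tl (k : ℕ) {ψ : ℝ → ℝ≥0∞} (hψ : Measurable ψ) :
    ∫⁻ y in Ioi (0 : ℝ), ENNReal.ofReal (y ^ k) * Tl ψ y
      = ENNReal.ofReal (1 / (k + 1)) * ∫⁻ u in Ioi (0 : ℝ), ENNReal.ofReal (u ^ (k + 1)) * ψ u := by
  have hm : Measurable (Function.uncurry fun (y u : ℝ) =>
      ENNReal.ofReal (y ^ k) * (Ioi y).indicator ψ u) := by
    refine Measurable.mul (by fun_prop) ?_
    exact Measurable.indicator (f := fun p : ℝ × ℝ => ψ p.2) (s := {p : ℝ × ℝ | p.1 < p.2})
      (by fun_prop) (measurableSet_lt measurable_fst measurable_snd)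
  have h1 : ∀ y : ℝ, ENNReal.ofReal (y ^ k) * Tl ψ y
      = ∫⁻ u, ENNReal.ofReal (y ^ k) * (Ioi y).indicator ψ u := fun y => by
    rw [Tl_eq, lintegral_const_mul _ (hψ.indicator measurableSet_Ioi)]
  simp only [h1]
  rw [lintegral_lintegral_swap hm.aemeasurable, ← lintegral_const_mul _ (by fun_prop),
    ← lintegral_indicator measurableSet_Ioi]
  refine lintegral_congr fun u => ?_
  have h2 : ∀ y : ℝ, ENNReal.ofReal (y ^ k) * (Ioi y).indicator ψ u
      = (Iio u).indicator (fun y => ENNReal.ofReal (y ^ k)) y * ψ u := fun y => by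
    by_cases h : y < u
    · rw [indicator_of_mem (by simpa using h), indicator_of_mem (by simpa using h)]
    · rw [indicator_of_notMem (by simpa using h), indicator_of_notMem (by simpa using h)]; simp
  simp only [h2]
  rw [lintegral_mul_const _ (Measurable.indicator (by fun_prop) measurableSet_Iio),
    lintegral_indicator measurableSet_Iio, Measure.restrict_restrict measurableSet_Iio,
    Iio_inter_Ioi]
  by_cases hu : 0 < u
  · rw [indicator_of_mem (by simpa using hu), ← mul_assoc, ← ENNReal.ofReal_mul (by positivity),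
      restrict_Ioo_eq_restrict_Ioc,
      ← ofReal_integral_eq_lintegral_ofReal (intervalIntegral.intervalIntegrable_pow _).1,
      ← intervalIntegral.integral_of_le hu.le, integral_pow]
    · congr 2
      simp; ring
    · filter_upwards [ae_restrict_mem measurableSet_Ioc] with y hy
      exact pow_nonneg hy.1.le _
  · rw [indicator_of_notMem (by simpa using hu), Ioo_eq_empty hu]
    simp

lemma lintegral_fin3 (F : ℝ → ℝ → ℝ → ℝ≥0∞)
    (hF : Measurable fun p : ℝ × ℝ × ℝ => F p.1 p.2.1 p.2.2) :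
    ∫⁻ a : Fin 3 → ℝ, F (a 0) (a 1) (a 2) = ∫⁻ x, ∫⁻ y, ∫⁻ z, F x y z := by
  have h1 := volume_preserving_piFinSuccAbove (fun _ : Fin 3 => ℝ) 0
  have h2 := (MeasurePreserving.id (volume : Measure ℝ)).prod (volume_preserving_finTwoArrow ℝ)
  have h3 := (h2.comp h1).lintegral_comp hF
  refine Eq.trans (lintegral_congr fun a => ?_) (h3.trans ?_)
  · rfl
  · rw [lintegral_prod _ hF.aemeasurable]
    refine lintegral_congr fun x => ?_
    exact lintegral_prod (fun q : ℝ × ℝ => F x q.1 q.2)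
      (hF.comp (measurable_prodMk_left (x := x))).aemeasurable

lemma simplex_int {ψ : ℝ → ℝ≥0∞} (hψ : Measurable ψ) :
    ∫⁻ a : Fin 3 → ℝ, ENNReal.ofReal (min (a 0) (min (a 1) (a 2))) * ψ (a 0 + a 1 + a 2)
      = ENNReal.ofReal (1 / 18) * ∫⁻ u in Ioi (0 : ℝ), ENNReal.ofReal (u ^ 3) * ψ u := by
  let S : Set ((Fin 3 → ℝ) × ℝ) := {p | p.2 < p.1 0 ∧ p.2 < p.1 1 ∧ p.2 < p.1 2}
  have hS0 : ∀ i, MeasurableSet {p : (Fin 3 → ℝ) × ℝ | p.2 < p.1 i} := fun i =>
    measurableSet_lt (by fun_prop) (by fun_prop)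
  have hS : MeasurableSet S := (hS0 0).inter ((hS0 1).inter (hS0 2))
  let K : (Fin 3 → ℝ) × ℝ → ℝ≥0∞ := S.indicator fun p => ψ (p.1 0 + p.1 1 + p.1 2)
  have hK : Measurable K := Measurable.indicator (by fun_prop) hS
  have h1 : ∀ a : Fin 3 → ℝ,
      ENNReal.ofReal (min (a 0) (min (a 1) (a 2))) * ψ (a 0 + a 1 + a 2)
        = ∫⁻ t in Ioi (0 : ℝ), K (a, t) := fun a => by
    have : ∀ t, K (a, t)
        = (Iio (min (a 0) (min (a 1) (a 2)))).indicator (fun _ => ψ (a 0 + a 1 + a 2)) t := by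
      intro t
      by_cases h : t < min (a 0) (min (a 1) (a 2))
      · rw [indicator_of_mem (by simpa using h)]
        exact indicator_of_mem (by simpa [S] using h) _
      · rw [indicator_of_notMem (by simpa using h)]
        exact indicator_of_notMem (by simpa [S] using h) _
    simp only [this]
    rw [lintegral_indicator measurableSet_Iio, Measure.restrict_restrict measurableSet_Iio,
      Iio_inter_Ioi, setLIntegral_const, volume_Ioo, sub_zero, mul_comm]
  have h2 : ∀ t : ℝ, ∫⁻ a : Fin 3 → ℝ, K (a, t) = Tl (Tl (Tl ψ)) (3 * t) := fun t => by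
    rw [← lintegral_add_right_eq_self _ (fun _ => t)]
    let F : ℝ → ℝ → ℝ → ℝ≥0∞ := fun x y z =>
      (Ioi 0).indicator 1 x * ((Ioi 0).indicator 1 y * ((Ioi 0).indicator 1 z *
        ψ (z + (y + (x + 3 * t)))))
    have hi : Measurable ((Ioi (0 : ℝ)).indicator (1 : ℝ → ℝ≥0∞)) :=
      measurable_one.indicator measurableSet_Ioi
    have hF : Measurable fun p : ℝ × ℝ × ℝ => F p.1 p.2.1 p.2.2 := by
      simp only [F]
      fun_prop
    have h3 : ∀ a : Fin 3 → ℝ, K (a + fun _ => t, t) = F (a 0) (a 1) (a 2) := fun a => by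
      simp only [K, F, S, indicator, mem_ofPred_eq, Pi.add_apply, lt_add_iff_pos_left, mem_Ioi,
        Pi.one_apply]
      rw [show a 0 + t + (a 1 + t) + (a 2 + t) = a 2 + (a 1 + (a 0 + 3 * t)) by ring]
      by_cases h0 : 0 < a 0 <;> by_cases h1 : 0 < a 1 <;> by_cases h2 : 0 < a 2 <;>
        simp [h0, h1, h2]
    simp only [h3]
    rw [lintegral_fin3 F hF]
    have h4 : ∀ (f : ℝ → ℝ≥0∞), ∫⁻ x in Ioi (0 : ℝ), f x
        = ∫⁻ x, (Ioi (0 : ℝ)).indicator 1 x * f x := fun f => by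
      rw [← lintegral_indicator measurableSet_Ioi]
      refine lintegral_congr fun x => ?_
      by_cases h : x ∈ Ioi (0 : ℝ) <;> simp [h]
    have hne : ∀ x, (Ioi (0 : ℝ)).indicator (1 : ℝ → ℝ≥0∞) x ≠ ∞ := fun x => by
      by_cases h : x ∈ Ioi (0 : ℝ) <;> simp [h]
    simp only [Tl, h4, F]
    refine lintegral_congr fun x => ?_
    rw [← lintegral_const_mul' _ _ (hne x)]
    refine lintegral_congr fun y => ?_
    rw [lintegral_const_mul' _ _ (hne x), lintegral_const_mul' _ _ (hne y)]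
  simp only [h1]
  rw [lintegral_lintegral_swap (f := fun a t => K (a, t)) hK.aemeasurable]
  simp only [h2]
  have hT1 := measurable_Tl hψ
  have hT2 := measurable_Tl hT1
  have hT3 := measurable_Tl hT2
  have h5 : ∫⁻ t in Ioi (0 : ℝ), Tl (Tl (Tl ψ)) (3 * t)
      = ENNReal.ofReal (1 / 3) * ∫⁻ s in Ioi (0 : ℝ), Tl (Tl (Tl ψ)) s := by
    rw [← lintegral_indicator measurableSet_Ioi, ← lintegral_indicator measurableSet_Ioi]
    have := lintegral_map (μ := (volume : Measure ℝ)) (hT3.indicator (measurableSet_Ioi (a := 0)))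
      (g := fun t : ℝ => 3 * t) (by fun_prop)
    rw [Real.map_volume_mul_left (by norm_num), lintegral_smul_measure] at this
    rw [show (1 / 3 : ℝ) = |3⁻¹| by norm_num, ← smul_eq_mul, this]
    refine lintegral_congr fun x => ?_
    by_cases h : 0 < x
    · rw [indicator_of_mem (by simpa using h), indicator_of_mem (by simpa using h)]
    · rw [indicator_of_notMem (by simpa using h), indicator_of_notMem (by simpa using h)]
  have c0 := conv_Tl 0 hT2
  have c1 := conv_Tl 1 hT1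
  have c2 := conv_Tl 2 hψ
  simp only [pow_zero, ENNReal.ofReal_one, one_mul] at c0
  rw [h5, c0, c1, c2, ← mul_assoc, ← mul_assoc, ← mul_assoc,
    ← ENNReal.ofReal_mul (by norm_num), ← ENNReal.ofReal_mul (by norm_num),
    ← ENNReal.ofReal_mul (by norm_num)]
  norm_num

lemma lemT_matrix (M : Matrix (Fin 3) (Fin 3) ℝ) (hM : M.det ≠ 0) {σ : ℝ} (hσ : 0 < σ)
    (hσ2 : ∑ k, (M 0 k + M 1 k + M 2 k) ^ 2 ≤ σ ^ 2) :
    ∫⁻ x, ENNReal.ofReal (min (M.mulVec x 0) (min (M.mulVec x 1) (M.mulVec x 2))) ∂gam (Fin 3)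
      ≤ ENNReal.ofReal (|M.det|⁻¹ * (σ ^ 4 / (9 * √(2 * π) ^ 3))) := by
  let ψ : ℝ → ℝ≥0∞ := fun u => ENNReal.ofReal (exp (-u ^ 2 / (2 * σ ^ 2)))
  have hψ : Measurable ψ := by fun_prop
  let h : (Fin 3 → ℝ) → ℝ≥0∞ := fun a =>
    ENNReal.ofReal (min (a 0) (min (a 1) (a 2))) * ψ (a 0 + a 1 + a 2)
  have hh : Measurable h := by fun_prop
  have hmv : Measurable fun x : Fin 3 → ℝ => M.mulVec x :=
    (Matrix.toLin' M).continuous_of_finiteDimensional.measurable
  have hs := sqrt_two_pi_pos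
  rw [gam_eq, lintegral_withDensity_eq_lintegral_mul _ (by fun_prop) (by fun_prop)]
  have h1 : ∀ x : Fin 3 → ℝ, ENNReal.ofReal (∏ i, gaussianPDFReal 0 1 (x i)) *
      ENNReal.ofReal (min (M.mulVec x 0) (min (M.mulVec x 1) (M.mulVec x 2)))
      ≤ ENNReal.ofReal ((√(2 * π))⁻¹ ^ 3) * h (M.mulVec x) := fun x => by
    simp only [h, ψ]
    rw [prod_pdf, Fintype.card_fin, ENNReal.ofReal_mul (by positivity), mul_assoc, mul_comm
      (ENNReal.ofReal (exp _))]
    refine mul_le_mul_right (mul_le_mul_right (ENNReal.ofReal_le_ofReal (exp_le_exp.2 ?_)) _) _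
    have hcs := Finset.sum_mul_sq_le_sq_mul_sq Finset.univ
      (fun k => M 0 k + M 1 k + M 2 k) x
    have he : M.mulVec x 0 + M.mulVec x 1 + M.mulVec x 2
        = ∑ k, (M 0 k + M 1 k + M 2 k) * x k := by
      simp only [Matrix.mulVec, dotProduct, Fin.sum_univ_three]; ring
    rw [he, neg_div, neg_div, neg_le_neg_iff, div_le_div_iff₀ (by positivity) (by positivity)]
    have hx : 0 ≤ ∑ i, x i ^ 2 := by positivity
    nlinarith [mul_le_mul_of_nonneg_right hσ2 hx]
  refine (lintegral_mono h1).trans (le_of_eq ?_)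
  rw [lintegral_const_mul _ (by fun_prop)]
  have h2 := lintegral_map (μ := (volume : Measure (Fin 3 → ℝ))) hh hmv
  have h3 : Measure.map (fun x : Fin 3 → ℝ => M.mulVec x) volume
      = ENNReal.ofReal |M.det⁻¹| • volume := Real.map_matrix_volume_pi_eq_smul_volume_pi hM
  rw [h3, lintegral_smul_measure, simplex_int hψ] at h2
  rw [← h2]
  have h4 : ∫⁻ u in Ioi (0 : ℝ), ENNReal.ofReal (u ^ 3) * ψ u = ENNReal.ofReal (σ ^ 4 * 2) := by
    have h5 : I 3 = 2 := by rw [I_succ 1, I_one]; norm_num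
    rw [← h5, ← I_scale 3 hσ, ofReal_integral_eq_lintegral_ofReal (integrableOn_I 3 hσ)]
    · refine setLIntegral_congr_fun measurableSet_Ioi fun u hu => ?_
      simp only [ψ]
      rw [← ENNReal.ofReal_mul (pow_nonneg (le_of_lt hu) _)]
    · filter_upwards [ae_restrict_mem measurableSet_Ioi] with y hy
      have : (0 : ℝ) < y := hy
      positivity
  rw [h4, smul_eq_mul, ← ENNReal.ofReal_mul (by norm_num), ← ENNReal.ofReal_mul (abs_nonneg _),
    ← ENNReal.ofReal_mul (by positivity), abs_inv]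
  congr 1
  field_simp
  ring

variable {E : Type*} [NormedAddCommGroup E] [InnerProductSpace ℝ E] [FiniteDimensional ℝ E]
  [MeasurableSpace E] [BorelSpace E]

/-- The three-vector estimate. -/
theorem lemT (y : Fin 3 → E) :
    (∫ x, max (min ⟪y 0, x⟫ (min ⟪y 1, x⟫ ⟪y 2, x⟫)) 0 ∂stdGaussian E) *
      √(Matrix.det (Matrix.of fun a b => ⟪y a, y b⟫))
      ≤ ‖y 0 + y 1 + y 2‖ ^ 4 / (9 * √(2 * π) ^ 3) := by
  have hs := sqrt_two_pi_pos
  obtain ⟨w, hw⟩ := exists_gram y 3 (finrank_range_le_card (R := ℝ) y)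
  let M : Matrix (Fin 3) (Fin 3) ℝ := Matrix.of fun a k => w a k
  have hG : (Matrix.of fun a b => ⟪y a, y b⟫) = M * M.transpose := by
    ext a b
    simp [hw, M, Matrix.mul_apply, PiLp.inner_apply, mul_comm]
  have hdet : √(Matrix.det (Matrix.of fun a b => ⟪y a, y b⟫)) = |M.det| := by
    rw [hG, Matrix.det_mul, Matrix.det_transpose, ← sq, sqrt_sq_eq_abs]
  rw [hdet]
  by_cases hM : M.det = 0
  · rw [hM, abs_zero, mul_zero]; positivity
  have hn : ‖y 0 + y 1 + y 2‖ ^ 2 = ∑ k, (M 0 k + M 1 k + M 2 k) ^ 2 := by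
    have : ‖y 0 + y 1 + y 2‖ ^ 2 = ‖w 0 + w 1 + w 2‖ ^ 2 := by
      simp only [← real_inner_self_eq_norm_sq, inner_add_left, inner_add_right, hw]
    rw [this, EuclideanSpace.real_norm_sq_eq]
    simp [M]
  have hσ : 0 < ‖y 0 + y 1 + y 2‖ := by
    refine lt_of_le_of_ne (norm_nonneg _) fun h0 => hM ?_
    rw [← h0, Fin.sum_univ_three] at hn
    have a0 : M 0 0 + M 1 0 + M 2 0 = 0 := by nlinarith [sq_nonneg (M 0 0 + M 1 0 + M 2 0), sq_nonneg (M 0 1 + M 1 1 + M 2 1), sq_nonneg (M 0 2 + M 1 2 + M 2 2)]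
    have a1 : M 0 1 + M 1 1 + M 2 1 = 0 := by nlinarith [sq_nonneg (M 0 0 + M 1 0 + M 2 0), sq_nonneg (M 0 1 + M 1 1 + M 2 1), sq_nonneg (M 0 2 + M 1 2 + M 2 2)]
    have a2 : M 0 2 + M 1 2 + M 2 2 = 0 := by nlinarith [sq_nonneg (M 0 0 + M 1 0 + M 2 0), sq_nonneg (M 0 1 + M 1 1 + M 2 1), sq_nonneg (M 0 2 + M 1 2 + M 2 2)]
    rw [Matrix.det_fin_three, show M 0 0 = -(M 1 0 + M 2 0) by linarith,
      show M 0 1 = -(M 1 1 + M 2 1) by linarith, show M 0 2 = -(M 1 2 + M 2 2) by linarith]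
    ring
  have h1 := lemT_matrix M hM hσ hn.symm.le
  have h2 := integral_eq_of_gram y w hw (fun a => max (min (a 0) (min (a 1) (a 2))) 0)
    (by fun_prop)
  simp only at h2
  rw [h2, ← map_pi_eq_stdGaussian, integral_map (by fun_prop) (by fun_prop),
    integral_eq_lintegral_of_nonneg_ae (ae_of_all _ fun x => by exact le_max_right _ _)
      (by fun_prop)]
  have h3 : ∀ (x : Fin 3 → ℝ) (a : Fin 3), ⟪w a, WithLp.toLp 2 x⟫ = M.mulVec x a := fun x a => by
    simp [M, Matrix.mulVec, dotProduct, PiLp.inner_apply, mul_comm]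
  have h4 : ∀ t : ℝ, ENNReal.ofReal (max t 0) = ENNReal.ofReal t := fun t => by
    rcases le_total t 0 with h | h
    · rw [max_eq_right h, ENNReal.ofReal_zero, ENNReal.ofReal_of_nonpos h]
    · rw [max_eq_left h]
  simp only [h3, h4]
  have h5 := ENNReal.toReal_le_of_le_ofReal (by positivity) h1
  have h6 : 0 < |M.det| := abs_pos.2 hM
  calc _ ≤ |M.det|⁻¹ * (‖y 0 + y 1 + y 2‖ ^ 4 / (9 * √(2 * π) ^ 3)) * |M.det| :=
        mul_le_mul_of_nonneg_right h5 h6.le
    _ = _ := by field_simp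

end Crest.Agent.R215
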