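import Crest.Agent.R215.Gauss

/-! Row 215 (propeller): polar coordinates for cones. -/

set_option autoImplicit false
set_option linter.unusedSectionVars false

open MeasureTheory ProbabilityTheory Real Set Metric
open scoped RealInnerProductSpace ENNReal NNReal

noncomputable section

namespace Crest.Agent.R215

/-- Sets invariant under positive dilations. -/
def IsCone {E : Type*} [SMul ℝ E] (A : Set E) : Prop := ∀ x, ∀ t : ℝ, 0 < t → (t • x ∈ A ↔ x ∈ A)

lemma lintegral_cone_vol {E : Type*} [NormedAddCommGroup E] [NormedSpace ℝ E] [Nontrivial E]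
    [MeasurableSpace E] [BorelSpace E] [FiniteDimensional ℝ E] (μ : Measure E)
    [μ.IsAddHaarMeasure] {A : Set E} (hA : MeasurableSet A) (hc : IsCone A)
    {H : ℝ → ℝ≥0∞} (hH : Measurable H) :
    ∫⁻ x in A, H ‖x‖ ∂μ = μ.toSphere (Subtype.val ⁻¹' A) *
      ∫⁻ y in Ioi (0 : ℝ), ENNReal.ofReal (y ^ (Module.finrank ℝ E - 1)) * H y := by
  have hS : MeasurableSet (Subtype.val ⁻¹' A : Set (sphere (0 : E) 1)) :=
    measurable_subtype_coe hA
  let G : sphere (0 : E) 1 × Ioi (0 : ℝ) → ℝ≥0∞ :=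
    fun p => (Subtype.val ⁻¹' A : Set (sphere (0 : E) 1)).indicator 1 p.1 * H p.2
  have hG : Measurable G :=
    ((measurable_one.indicator hS).comp measurable_fst).mul
      (hH.comp (measurable_subtype_coe.comp measurable_snd))
  have h1 := μ.measurePreserving_homeomorphUnitSphereProd.lintegral_comp hG
  have h0 : ∫⁻ x in A, H ‖x‖ ∂μ
      = ∫⁻ x : ({0}ᶜ : Set E), A.indicator (fun x => H ‖x‖) x ∂(μ.comap (↑)) := by
    rw [lintegral_subtype_comap (measurableSet_singleton _).compl, restrict_compl_singleton,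
      lintegral_indicator hA]
  rw [h0]
  have h2 : ∀ x : ({0}ᶜ : Set E), A.indicator (fun x => H ‖x‖) x
      = G (homeomorphUnitSphereProd E x) := fun x => by
    have hx : 0 < ‖x.1‖ := norm_pos_iff.2 x.2
    have h3 := hc x.1 ‖x.1‖⁻¹ (inv_pos.2 hx)
    simp only [G, homeomorphUnitSphereProd_apply_snd_coe]
    by_cases h : x.1 ∈ A
    · rw [indicator_of_mem h, indicator_of_mem (by simpa using h3.2 h)]; simp
    · rw [indicator_of_notMem h, indicator_of_notMem (by simpa using fun h' => h (h3.1 h'))]; simp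
  simp only [h2]
  rw [h1, lintegral_prod_mul (f := (Subtype.val ⁻¹' A : Set (sphere (0 : E) 1)).indicator 1)
    (g := fun y : Ioi (0 : ℝ) => H y) (measurable_one.indicator hS).aemeasurable
    (hH.comp measurable_subtype_coe).aemeasurable, lintegral_indicator_one hS,
    Measure.volumeIoiPow, lintegral_withDensity_eq_lintegral_mul _ (by fun_prop)
      (by fun_prop), ← lintegral_subtype_comap measurableSet_Ioi]
  rfl

lemma lintegral_stdG (n : ℕ) {f : EuclideanSpace ℝ (Fin n) → ℝ≥0∞} (hf : Measurable f) :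
    ∫⁻ x, f x ∂stdGaussian (EuclideanSpace ℝ (Fin n))
      = ∫⁻ x, ENNReal.ofReal ((√(2 * π))⁻¹ ^ n * exp (-‖x‖ ^ 2 / 2)) * f x := by
  rw [← map_pi_eq_stdGaussian, lintegral_map hf (by fun_prop),
    ← (PiLp.volume_preserving_toLp (Fin n)).lintegral_comp (by fun_prop)]
  change ∫⁻ x, _ ∂gam (Fin n) = _
  rw [gam_eq, lintegral_withDensity_eq_lintegral_mul _ (by fun_prop) (by fun_prop)]
  refine lintegral_congr fun x => ?_
  simp only [Pi.mul_apply, prod_pdf, Fintype.card_fin, EuclideanSpace.real_norm_sq_eq]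

lemma lintegral_I (k : ℕ) {a : ℝ} (ha : 0 < a) :
    ∫⁻ y in Ioi (0 : ℝ), ENNReal.ofReal (y ^ k * exp (-y ^ 2 / (2 * a ^ 2)))
      = ENNReal.ofReal (a ^ (k + 1) * I k) := by
  rw [← I_scale k ha, ofReal_integral_eq_lintegral_ofReal (integrableOn_I k ha)]
  filter_upwards [ae_restrict_mem measurableSet_Ioi] with y hy
  have : (0 : ℝ) < y := hy
  positivity

lemma lintegral_I_one (k : ℕ) :
    ∫⁻ y in Ioi (0 : ℝ), ENNReal.ofReal (y ^ k * exp (-y ^ 2 / 2)) = ENNReal.ofReal (I k) := by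
  simpa using lintegral_I k one_pos

/-- Radial independence for cones. -/
lemma lintegral_cone (n : ℕ) {A : Set (EuclideanSpace ℝ (Fin (n + 1)))} (hA : MeasurableSet A)
    (hc : IsCone A) {H : ℝ → ℝ≥0∞} (hH : Measurable H) :
    ∫⁻ x in A, H ‖x‖ ∂stdGaussian (EuclideanSpace ℝ (Fin (n + 1)))
      = stdGaussian (EuclideanSpace ℝ (Fin (n + 1))) A * ((ENNReal.ofReal (I n))⁻¹ *
        ∫⁻ y in Ioi (0 : ℝ), ENNReal.ofReal (y ^ n * exp (-y ^ 2 / 2)) * H y) := by
  have hs := sqrt_two_pi_pos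
  set c : ℝ≥0∞ := ENNReal.ofReal ((√(2 * π))⁻¹ ^ (n + 1)) with hcdef
  have key : ∀ {A : Set (EuclideanSpace ℝ (Fin (n + 1)))}, MeasurableSet A → IsCone A →
      ∀ {H : ℝ → ℝ≥0∞}, Measurable H →
      ∫⁻ x in A, H ‖x‖ ∂stdGaussian (EuclideanSpace ℝ (Fin (n + 1)))
        = (volume : Measure (EuclideanSpace ℝ (Fin (n + 1)))).toSphere (Subtype.val ⁻¹' A) *
          (c * ∫⁻ y in Ioi (0 : ℝ), ENNReal.ofReal (y ^ n * exp (-y ^ 2 / 2)) * H y) := by
    intro A hA hc H hH
    have h1 := lintegral_cone_vol volume hA hc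
      (H := fun y => ENNReal.ofReal ((√(2 * π))⁻¹ ^ (n + 1) * exp (-y ^ 2 / 2)) * H y)
      (by fun_prop)
    rw [← lintegral_indicator hA, lintegral_stdG _ (Measurable.indicator (by fun_prop) hA)]
    rw [← lintegral_indicator hA] at h1
    rw [← lintegral_const_mul _ (by fun_prop)]
    refine Eq.trans (lintegral_congr fun x => ?_) (h1.trans ?_)
    · by_cases h : x ∈ A <;> simp [h]
    · congr 1
      refine setLIntegral_congr_fun measurableSet_Ioi fun y hy => ?_
      have hy' : (0 : ℝ) < y := hy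
      simp only [finrank_euclideanSpace, Fintype.card_fin, Nat.add_sub_cancel]
      rw [ENNReal.ofReal_mul (by positivity), ENNReal.ofReal_mul (by positivity)]
      ring
  have h2 := key hA hc (H := fun _ => 1) measurable_const
  simp only [mul_one, lintegral_I_one, setLIntegral_const, one_mul] at h2
  rw [key hA hc hH, h2]
  have hI : ENNReal.ofReal (I n) ≠ 0 := by simpa using I_pos n
  have : ENNReal.ofReal (I n) * (ENNReal.ofReal (I n))⁻¹ = 1 :=
    ENNReal.mul_inv_cancel hI ENNReal.ofReal_ne_top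
  calc _ = (volume : Measure (EuclideanSpace ℝ (Fin (n + 1)))).toSphere (Subtype.val ⁻¹' A) *
          (c * (ENNReal.ofReal (I n) * (ENNReal.ofReal (I n))⁻¹) *
          ∫⁻ y in Ioi (0 : ℝ), ENNReal.ofReal (y ^ n * exp (-y ^ 2 / 2)) * H y) := by
        rw [this, mul_one]
    _ = _ := by ring

lemma isCone_univ {E : Type*} [SMul ℝ E] : IsCone (univ : Set E) := fun _ _ _ => by simp

lemma lintegral_radial (n : ℕ) {H : ℝ → ℝ≥0∞} (hH : Measurable H) :
    ∫⁻ x, H ‖x‖ ∂stdGaussian (EuclideanSpace ℝ (Fin (n + 1)))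
      = (ENNReal.ofReal (I n))⁻¹ *
        ∫⁻ y in Ioi (0 : ℝ), ENNReal.ofReal (y ^ n * exp (-y ^ 2 / 2)) * H y := by
  simpa using lintegral_cone n MeasurableSet.univ isCone_univ hH

lemma integral_norm_cone (n : ℕ) {A : Set (EuclideanSpace ℝ (Fin (n + 1)))}
    (hA : MeasurableSet A) (hc : IsCone A) :
    ∫ x in A, ‖x‖ ∂stdGaussian (EuclideanSpace ℝ (Fin (n + 1)))
      = (stdGaussian (EuclideanSpace ℝ (Fin (n + 1)))).real A * (I (n + 1) / I n) := by
  rw [integral_eq_lintegral_of_nonneg_ae (ae_of_all _ fun x => by exact norm_nonneg x)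
    (by fun_prop), lintegral_cone n hA hc (H := ENNReal.ofReal) (by fun_prop)]
  have : ∫⁻ y in Ioi (0 : ℝ), ENNReal.ofReal (y ^ n * exp (-y ^ 2 / 2)) * ENNReal.ofReal y
      = ENNReal.ofReal (I (n + 1)) := by
    rw [← lintegral_I_one]
    refine setLIntegral_congr_fun measurableSet_Ioi fun y hy => ?_
    have hy' : (0 : ℝ) < y := hy
    rw [← ENNReal.ofReal_mul (by positivity)]
    congr 1; ring
  rw [this, ENNReal.toReal_mul, ENNReal.toReal_mul, ENNReal.toReal_inv,
    ENNReal.toReal_ofReal (I_pos _).le, ENNReal.toReal_ofReal (I_pos _).le, div_eq_inv_mul]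
  rfl

/-- Splitting off one coordinate. -/
lemma lintegral_split (d : ℕ) {e : EuclideanSpace ℝ (Fin (d + 1))} (he : ‖e‖ = 1)
    {Φ : ℝ × ℝ → ℝ≥0∞} (hΦ : Measurable Φ) :
    ∫⁻ x, Φ (⟪e, x⟫, ‖x‖) ∂stdGaussian (EuclideanSpace ℝ (Fin (d + 1)))
      = ∫⁻ y, ∫⁻ t, Φ (t, √(t ^ 2 + ‖y‖ ^ 2)) ∂gaussianReal 0 1
        ∂stdGaussian (EuclideanSpace ℝ (Fin d)) := by
  have ho : Orthonormal ℝ (({0} : Set (Fin (d + 1))).domRestrict (fun _ => e)) := by
    refine ⟨fun _ => he, fun i j hij => ?_⟩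
    exact absurd (Subsingleton.elim i j) hij
  obtain ⟨b, hb⟩ := ho.exists_orthonormalBasis_extension_of_card_eq (by simp)
  have hb0 : b 0 = e := hb 0 rfl
  rw [stdGaussian_eq_map_pi_orthonormalBasis b, lintegral_map (by fun_prop) (by fun_prop),
    ← map_pi_eq_stdGaussian, lintegral_map _ (by fun_prop)]
  swap
  · exact Measurable.lintegral_prod_right (f := fun (y : EuclideanSpace ℝ (Fin d)) (t : ℝ) =>
      Φ (t, √(t ^ 2 + ‖y‖ ^ 2))) (by fun_prop)
  have h1 := measurePreserving_piFinSuccAbove (fun _ : Fin (d + 1) => gaussianReal 0 1) 0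
  let Ψ : ℝ × (Fin d → ℝ) → ℝ≥0∞ := fun p =>
    Φ (p.1, √(p.1 ^ 2 + ‖(WithLp.toLp 2 p.2 : EuclideanSpace ℝ (Fin d))‖ ^ 2))
  have hΨ : Measurable Ψ := by fun_prop
  have h2 := h1.lintegral_comp hΨ
  rw [lintegral_prod_symm _ hΨ.aemeasurable] at h2
  refine Eq.trans (lintegral_congr fun x => ?_) h2
  simp only [Ψ]
  congr 2
  · rw [← hb0, b.orthonormal.inner_right_fintype]; rfl
  · rw [← sqrt_sq (norm_nonneg (∑ i, x i • b i)), ← real_inner_self_eq_norm_sq,
      b.orthonormal.inner_sum, EuclideanSpace.real_norm_sq_eq, Fin.sum_univ_succ]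
    simp [sq, Fin.tail]

end Crest.Agent.R215
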