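import Crest.Agent.R215.Basic
import Crest.Agent.R215.LemT

/-! Row 215 (propeller): structure of critical configurations. -/

set_option autoImplicit false
set_option linter.unusedSectionVars false

open MeasureTheory ProbabilityTheory Real Set Metric
open scoped RealInnerProductSpace ENNReal NNReal

noncomputable section

namespace Crest.Agent.R215

/-- Squared doubled area of a triangle in Laplacian coordinates. -/
def Jsq (a1 a2 a3 x1 x2 x3 : ℝ) : ℝ :=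
  a1 * a2 + a1 * a3 + a2 * a3 + 2 * (a1 * x1 + a2 * x2 + a3 * x3) + (x1 + x2 + x3) ^ 2
    - 2 * (x1 ^ 2 + x2 ^ 2 + x3 ^ 2)

lemma Jsq_core {a1 a2 a3 x1 x2 x3 w : ℝ} (h1 : 0 ≤ x1) (h2 : 0 ≤ x2) (h3 : 0 ≤ x3)
    (_g1 : x2 + x3 ≤ a1) (g2 : x1 + x3 ≤ a2) (g3 : x1 + x2 ≤ a3) (o1 : a3 ≤ a2) (o2 : a2 ≤ a1)
    (w1 : w ≤ a2 * a3) : 3 * w ≤ Jsq a1 a2 a3 x1 x2 x3 := by
  have ha3 : 0 ≤ a3 := by linarith
  have e1 : 0 ≤ x1 * (a1 - x1) := mul_nonneg h1 (by linarith)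
  have e2 : 0 ≤ x2 * (a2 - x2) := mul_nonneg h2 (by linarith)
  have e3 : x3 ^ 2 ≤ (x1 + x2 + x3) ^ 2 := by gcongr; linarith
  have e4 : a2 * a3 ≤ a1 * a3 := by gcongr
  have e5 : a2 * a3 ≤ a1 * a2 + 2 * x3 * a3 - x3 ^ 2 := by
    have e6 : a2 * a2 ≤ a1 * a2 := by gcongr; linarith
    rcases le_total x3 (2 * a3) with h | h
    · nlinarith [mul_nonneg h3 (sub_nonneg.2 h), mul_le_mul_of_nonneg_left o1 (ha3.trans o1)]
    · rcases le_total a2 (2 * x3) with h' | h'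
      · nlinarith [mul_nonneg ha3 (sub_nonneg.2 h')]
      · nlinarith [mul_nonneg ha3 h3]
  unfold Jsq
  nlinarith

lemma Jsq_ge {a1 a2 a3 x1 x2 x3 w : ℝ} (h1 : 0 ≤ x1) (h2 : 0 ≤ x2) (h3 : 0 ≤ x3)
    (g1 : x2 + x3 ≤ a1) (g2 : x1 + x3 ≤ a2) (g3 : x1 + x2 ≤ a3)
    (w1 : w ≤ a2 * a3) (w2 : w ≤ a1 * a3) (w3 : w ≤ a1 * a2) : 3 * w ≤ Jsq a1 a2 a3 x1 x2 x3 := by
  rcases le_total a1 a2 with p | p <;> rcases le_total a2 a3 with q | q <;>
    rcases le_total a1 a3 with r | r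
  · have := Jsq_core (w := w) h3 h2 h1 (by linarith) (by linarith) (by linarith) p q (by linarith)
    unfold Jsq at *; linarith
  · have := Jsq_core (w := w) h3 h2 h1 (by linarith) (by linarith) (by linarith) p q (by linarith)
    unfold Jsq at *; linarith
  · have := Jsq_core (w := w) h2 h3 h1 (by linarith) (by linarith) (by linarith) r q (by linarith)
    unfold Jsq at *; linarith
  · have := Jsq_core (w := w) h2 h1 h3 (by linarith) (by linarith) (by linarith) r p (by linarith)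
    unfold Jsq at *; linarith
  · have := Jsq_core (w := w) h3 h1 h2 (by linarith) (by linarith) (by linarith) p r (by linarith)
    unfold Jsq at *; linarith
  · have := Jsq_core (w := w) h1 h3 h2 (by linarith) (by linarith) (by linarith) q r (by linarith)
    unfold Jsq at *; linarith
  · have := Jsq_core (w := w) h1 h2 h3 (by linarith) (by linarith) (by linarith) q p (by linarith)
    unfold Jsq at *; linarith
  · have := Jsq_core (w := w) h1 h2 h3 (by linarith) (by linarith) (by linarith) q p (by linarith)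
    unfold Jsq at *; linarith

lemma Jsq_ge' {a1 a2 a3 x1 x2 x3 w : ℝ} (h1 : 0 ≤ x1) (h2 : 0 ≤ x2) (h3 : 0 ≤ x3)
    (g1 : x2 + x3 = a1) (g2 : x1 + x3 = a2) (g3 : x1 + x2 = a3)
    (w1 : w ≤ a2 * a3) (w2 : w ≤ a1 * a3) (w3 : w ≤ a1 * a2) :
    27 / 4 * w ≤ Jsq a1 a2 a3 x1 x2 x3 := by
  subst g1 g2 g3
  unfold Jsq
  rcases le_total x1 x2 with p | p <;> rcases le_total x2 x3 with q | q <;>
    rcases le_total x1 x3 with r | r <;>
  nlinarith [mul_nonneg h1 (sub_nonneg.2 p), mul_nonneg h1 (sub_nonneg.2 r),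
      mul_nonneg (sub_nonneg.2 p) (sub_nonneg.2 r)]

lemma pair_ge {s a b t u P Q : ℝ} (ht : 0 ≤ t) (hu : 0 ≤ u) (htu : t + u ≤ s) (ha : P ≤ a)
    (hb : Q ≤ b) (hQ : Q ≤ P) (hs : s ≤ Q) : P * (Q - s) ≤ (a - t) * (b - u) := by
  have h1 : (P - t) * (Q - u) ≤ (a - t) * (b - u) := by
    apply mul_le_mul <;> linarith
  nlinarith [mul_nonneg ht hu, mul_nonneg ht (sub_nonneg.2 hQ),
    mul_nonneg (show 0 ≤ P by linarith) (sub_nonneg.2 htu)]

lemma sum_ne {M : ℕ} (j : Fin M) (f : Fin M → ℝ) :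
    ∑ k : {k // k ≠ j}, f k = ∑ k, f k - f j := by
  rw [← Finset.add_sum_erase _ f (Finset.mem_univ j), add_sub_cancel_left]
  exact (Finset.sum_subtype _ (by simp) f).symm

lemma sum_ne' {M : ℕ} {F : Type*} [AddCommGroup F] (j : Fin M) (f : Fin M → F) :
    ∑ k : {k // k ≠ j}, f k = ∑ k, f k - f j := by
  rw [← Finset.add_sum_erase _ f (Finset.mem_univ j), add_sub_cancel_left]
  exact (Finset.sum_subtype _ (by simp) f).symm

variable {E : Type*} [NormedAddCommGroup E] [InnerProductSpace ℝ E] [FiniteDimensional ℝ E]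
  [MeasurableSpace E] [BorelSpace E]

/-- Critical configurations. -/
structure Crit {M : ℕ} (v : Fin (M + 1) → E) (lam : ℝ) : Prop where
  bnd : Bnd M
  three : 3 ≤ M
  hlam : cc < lam
  hsum : ∑ i, ‖v i‖ ^ 2 = 1
  hz : ∀ i, ∫ x in cell v i, x ∂stdGaussian E = lam • v i

namespace Crit

variable {M : ℕ} {v : Fin (M + 1) → E} {lam : ℝ}

lemma lam_pos (h : Crit v lam) : 0 < lam := cc_pos.trans h.hlam

lemma sum_zero (h : Crit v lam) : ∑ i, v i = 0 := by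
  have := (isPart_cell v).sum_integral (integrable_id (E := E))
  simp only [h.hz, integral_id_stdGaussian, ← Finset.smul_sum] at this
  exact (smul_eq_zero.1 this).resolve_left h.lam_pos.ne'

lemma card_ne (j : Fin (M + 1)) : Fintype.card {k // k ≠ j} = M := by simp

lemma inner_neg (h : Crit v lam) {i j : Fin (M + 1)} (hij : i ≠ j) : ⟪v i, v j⟫ < 0 := by
  have : Nonempty {k // k ≠ j} := ⟨⟨i, hij⟩⟩
  let w' : Fin (M + 1) → E := fun k => if k = i then v i + v j else v k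
  let w : {k // k ≠ j} → E := fun k => w' k
  let σ : Fin (M + 1) → {k // k ≠ j} := fun k => if hk : k = j then ⟨i, hij⟩ else ⟨k, hk⟩
  have h1 := (isPart_cell v).sum_le w σ
  have h2 := h.bnd.general (card_ne j).le w
  have h3 : ∑ k, ⟪w (σ k), v k⟫ = 1 + 2 * ⟪v i, v j⟫ := by
    have := Fintype.sum_eq_add (f := fun k => ⟪w (σ k), v k⟫ - ‖v k‖ ^ 2) i j hij
      (fun k hk => by simp [w, w', σ, hk.1, hk.2])
    rw [Finset.sum_sub_distrib, h.hsum] at this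
    simp only [w, w', σ, hij, dif_neg, not_false_eq_true, if_true, dif_pos, inner_add_left,
      real_inner_self_eq_norm_sq, real_inner_comm (v i) (v j)] at this
    simp only [w, w', σ]
    linarith
  have h4 : ∑ k, ‖w k‖ ^ 2 = 1 + 2 * ⟪v i, v j⟫ := by
    rw [sum_ne j (fun k => ‖w' k‖ ^ 2)]
    have := Fintype.sum_eq_single (f := fun k => ‖w' k‖ ^ 2 - ‖v k‖ ^ 2) i
      (fun k hk => by simp [w', hk])
    rw [Finset.sum_sub_distrib, h.hsum] at this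
    simp only [w', if_true, norm_add_sq_real] at this
    simp only [w', hij.symm, if_false]
    linarith
  simp only [h.hz, real_inner_smul_right, ← Finset.mul_sum, h3] at h1
  rw [h4] at h2
  by_contra hc
  push Not at hc
  have h5 : √(1 + 2 * ⟪v i, v j⟫) ≤ 1 + 2 * ⟪v i, v j⟫ := by
    rw [sqrt_le_left (by linarith)]; nlinarith
  have h6 := mul_le_mul_of_nonneg_left h5 cc_pos.le
  nlinarith [h.hlam]

lemma norm_pos (h : Crit v lam) (i : Fin (M + 1)) : 0 < ‖v i‖ := by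
  have : Nontrivial (Fin (M + 1)) := Fin.nontrivial_iff_two_le.2 (by linarith [h.three])
  obtain ⟨j, hj⟩ := exists_ne i
  refine norm_pos_iff.2 fun h0 => ?_
  have := h.inner_neg hj
  simp [h0] at this

lemma sum_inner (h : Crit v lam) (i : Fin (M + 1)) :
    ∑ j ∈ Finset.univ.erase i, -⟪v i, v j⟫ = ‖v i‖ ^ 2 := by
  have h1 : ∑ j, ⟪v i, v j⟫ = 0 := by rw [← inner_sum, h.sum_zero, inner_zero_right]
  rw [← Finset.add_sum_erase _ _ (Finset.mem_univ i), real_inner_self_eq_norm_sq] at h1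
  rw [Finset.sum_neg_distrib]
  linarith

lemma sub_le (h : Crit v lam) (i : Fin (M + 1)) (T : Finset (Fin (M + 1))) (hT : i ∉ T) :
    ∑ j ∈ T, -⟪v i, v j⟫ ≤ ‖v i‖ ^ 2 := by
  rw [← h.sum_inner i]
  refine Finset.sum_le_sum_of_subset_of_nonneg (fun j hj => ?_) fun j hj _ => ?_
  · exact Finset.mem_erase.2 ⟨fun h' => hT (h' ▸ hj), Finset.mem_univ _⟩
  · exact neg_nonneg.2 (h.inner_neg (Finset.mem_erase.1 hj).1.symm).le

lemma sub_eq (h : Crit v lam) (i : Fin (M + 1)) (T : Finset (Fin (M + 1))) (hT : i ∉ T)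
    (hc : T.card = M) : ∑ j ∈ T, -⟪v i, v j⟫ = ‖v i‖ ^ 2 := by
  rw [← h.sum_inner i]
  congr 1
  refine Finset.eq_of_subset_of_card_le (fun j hj => ?_) (by simp [hc])
  exact Finset.mem_erase.2 ⟨fun h' => hT (h' ▸ hj), Finset.mem_univ _⟩

lemma three_le (h : Crit v lam) {i j k l : Fin (M + 1)} (hij : i ≠ j) (hik : i ≠ k) (hil : i ≠ l)
    (hjk : j ≠ k) (hjl : j ≠ l) (hkl : k ≠ l) :
    -⟪v i, v j⟫ + -⟪v i, v k⟫ + -⟪v i, v l⟫ ≤ ‖v i‖ ^ 2 := by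
  have := h.sub_le i {j, k, l} (by simp [hij, hik, hil])
  rw [Finset.sum_insert (by simp [hjk, hjl]), Finset.sum_pair hkl] at this
  linarith

lemma three_eq (h : Crit v lam) (hM : M = 3) {i j k l : Fin (M + 1)} (hij : i ≠ j) (hik : i ≠ k)
    (hil : i ≠ l) (hjk : j ≠ k) (hjl : j ≠ l) (hkl : k ≠ l) :
    -⟪v i, v j⟫ + -⟪v i, v k⟫ + -⟪v i, v l⟫ = ‖v i‖ ^ 2 := by
  have := h.sub_eq i {j, k, l} (by simp [hij, hik, hil]) (by
    rw [Finset.card_insert_of_notMem (by simp [hjk, hjl]), Finset.card_pair hkl, hM])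
  rw [Finset.sum_insert (by simp [hjk, hjl]), Finset.sum_pair hkl] at this
  linarith

lemma four_le (h : Crit v lam) {i j k l n : Fin (M + 1)} (hij : i ≠ j) (hik : i ≠ k) (hil : i ≠ l)
    (hin : i ≠ n) (hjk : j ≠ k) (hjl : j ≠ l) (hjn : j ≠ n) (hkl : k ≠ l) (hkn : k ≠ n)
    (hln : l ≠ n) :
    -⟪v i, v j⟫ + -⟪v i, v k⟫ + -⟪v i, v l⟫ + -⟪v i, v n⟫ ≤ ‖v i‖ ^ 2 := by
  have := h.sub_le i {j, k, l, n} (by simp [hij, hik, hil, hin])
  rw [Finset.sum_insert (by simp [hjk, hjl, hjn]), Finset.sum_insert (by simp [hkl, hkn]),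
    Finset.sum_pair hln] at this
  linarith

lemma removal (h : Crit v lam) (i : Fin (M + 1)) [Nonempty {k // k ≠ i}] :
    ∫ x in cell v i, mx (fun k : {k // k ≠ i} => v k) x ∂stdGaussian E
      ≤ lam * ‖v i‖ ^ 2 * ((M - 1) / (2 * M)) := by
  set w : {k // k ≠ i} → E := fun k => v k with hw
  have hM : (0 : ℝ) < M := by have := h.three; positivity
  have h1 : Fm w = ∑ n, ∫ x in cell v n, mx w x ∂stdGaussian E :=
    ((isPart_cell v).sum_integral (integrable_mx w)).symm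
  have h2 := sum_ne i (fun n => ∫ x in cell v n, mx w x ∂stdGaussian E)
  have h3 : ∑ n : {k // k ≠ i}, lam * ‖v n‖ ^ 2
      ≤ ∑ n : {k // k ≠ i}, ∫ x in cell v n, mx w x ∂stdGaussian E :=
    Finset.sum_le_sum fun n _ => by
      have := inner_setIntegral_le w n (cell v n)
      rwa [h.hz, real_inner_smul_right, real_inner_self_eq_norm_sq] at this
  rw [← Finset.mul_sum, sum_ne i (fun n => ‖v n‖ ^ 2), h.hsum] at h3
  have h4 := h.bnd.general (card_ne i).le (fun k => w k - (-(M : ℝ)⁻¹) • v i)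
  rw [Fm_sub, sum_norm_sub_sq, sum_ne i (fun n => ‖v n‖ ^ 2), sum_ne' i v, h.hsum, h.sum_zero,
    card_ne, zero_sub, inner_neg_left, real_inner_smul_right, real_inner_self_eq_norm_sq,
    norm_smul, mul_pow, Real.norm_eq_abs, sq_abs] at h4
  have h5 : √(1 - ‖v i‖ ^ 2 - 2 * -(-(M : ℝ)⁻¹ * ‖v i‖ ^ 2) + M * ((-(M : ℝ)⁻¹) ^ 2 * ‖v i‖ ^ 2))
      ≤ 1 - ‖v i‖ ^ 2 * (M + 1) / (2 * M) := by
    have hs : ‖v i‖ ^ 2 ≤ 1 := by
      rw [← h.hsum]
      exact Finset.single_le_sum (f := fun i => ‖v i‖ ^ 2) (fun i _ => sq_nonneg _)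
        (Finset.mem_univ i)
    have hM1 : (1 : ℝ) ≤ M := by have := h.three; exact_mod_cast (by omega : 1 ≤ M)
    have h6 : ‖v i‖ ^ 2 * (M + 1) / (2 * M) ≤ 1 := by
      rw [div_le_one (by positivity)]; nlinarith [sq_nonneg ‖v i‖]
    rw [sqrt_le_left (by linarith)]
    have h7 : 1 - ‖v i‖ ^ 2 - 2 * -(-(M : ℝ)⁻¹ * ‖v i‖ ^ 2) + M * ((-(M : ℝ)⁻¹) ^ 2 * ‖v i‖ ^ 2)
        = 1 - 2 * (‖v i‖ ^ 2 * (M + 1) / (2 * M)) := by field_simp; ring
    rw [h7]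
    nlinarith [sq_nonneg (‖v i‖ ^ 2 * (M + 1) / (2 * M))]
  have h8 : cc * √(1 - ‖v i‖ ^ 2 - 2 * -(-(M : ℝ)⁻¹ * ‖v i‖ ^ 2)
      + M * ((-(M : ℝ)⁻¹) ^ 2 * ‖v i‖ ^ 2)) ≤ lam * (1 - ‖v i‖ ^ 2 * (M + 1) / (2 * M)) :=
    mul_le_mul h.hlam.le h5 (sqrt_nonneg _) h.lam_pos.le
  have h9 : lam * ‖v i‖ ^ 2 * ((M - 1) / (2 * M))
      = lam * (1 - ‖v i‖ ^ 2 * (M + 1) / (2 * M)) - lam * (1 - ‖v i‖ ^ 2) := by
    field_simp; ring
  linarith

lemma small_cell (h : Crit v lam) {i j k l : Fin (M + 1)} (hij : i ≠ j) (hik : i ≠ k) (hil : i ≠ l)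
    {b W : ℝ} (hb0 : 0 < b)
    (hb : ‖v i‖ ^ 2 * ((M - 1) / (2 * M)) + (-⟪v i, v j⟫ + -⟪v i, v k⟫ + -⟪v i, v l⟫) / 3
      ≤ b * ‖v i‖ ^ 2)
    (hW : W ≤ Jsq (‖v j‖ ^ 2 - ⟪v i, v j⟫ ^ 2 / ‖v i‖ ^ 2) (‖v k‖ ^ 2 - ⟪v i, v k⟫ ^ 2 / ‖v i‖ ^ 2)
      (‖v l‖ ^ 2 - ⟪v i, v l⟫ ^ 2 / ‖v i‖ ^ 2)
      (-⟪v k, v l⟫ + ⟪v i, v k⟫ * ⟪v i, v l⟫ / ‖v i‖ ^ 2)
      (-⟪v j, v l⟫ + ⟪v i, v j⟫ * ⟪v i, v l⟫ / ‖v i‖ ^ 2)
      (-⟪v j, v k⟫ + ⟪v i, v j⟫ * ⟪v i, v k⟫ / ‖v i‖ ^ 2)) :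
    16 * π ^ 2 * W ≤ 6561 * b ^ 4 * ‖v i‖ ^ 2 := by
  have hr := h.norm_pos i
  rcases le_or_gt W 0 with hW0 | hW0
  · have : 0 ≤ 6561 * b ^ 4 * ‖v i‖ ^ 2 := by positivity
    nlinarith [sq_nonneg π]
  have : Nonempty {k // k ≠ i} := ⟨⟨j, hij.symm⟩⟩
  have hS := sqrt_two_pi_pos
  let μ : E := (1 / 3 : ℝ) • (v j + v k + v l)
  let y : Fin 3 → E := ![(3 * b / 2) • v i + μ - v j, (3 * b / 2) • v i + μ - v k,
    (3 * b / 2) • v i + μ - v l]
  have hT := lemT y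
  have hsum : ‖y 0 + y 1 + y 2‖ = 9 * b / 2 * ‖v i‖ := by
    have : y 0 + y 1 + y 2 = (9 * b / 2) • v i := by
      simp only [y, μ, Matrix.cons_val_zero, Matrix.cons_val_one, Matrix.cons_val]
      module
    rw [this, norm_smul, Real.norm_eq_abs, abs_of_pos (by positivity)]
  have hdet : (3 * b / 2 * ‖v i‖) ^ 2 * W ≤ Matrix.det (Matrix.of fun a b => ⟪y a, y b⟫) := by
    refine (mul_le_mul_of_nonneg_left hW (by positivity)).trans (le_of_eq ?_)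
    rw [Matrix.det_fin_three]
    simp only [y, μ, Matrix.of_apply, Matrix.cons_val_zero, Matrix.cons_val_one, Matrix.cons_val,
      inner_add_left, inner_add_right, inner_sub_left, inner_sub_right, real_inner_smul_left,
      real_inner_smul_right]
    simp only [real_inner_self_eq_norm_sq, real_inner_comm (v i) (v j),
      real_inner_comm (v i) (v k), real_inner_comm (v i) (v l), real_inner_comm (v j) (v k),
      real_inner_comm (v j) (v l), real_inner_comm (v k) (v l), Jsq]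
    field_simp
    ring
  have hsq : 3 * b / 2 * ‖v i‖ * √W ≤ √(Matrix.det (Matrix.of fun a b => ⟪y a, y b⟫)) := by
    refine le_sqrt_of_sq_le ?_
    rwa [mul_pow, sq_sqrt hW0.le]
  have hi : Integrable (fun x => max (min ⟪y 0, x⟫ (min ⟪y 1, x⟫ ⟪y 2, x⟫)) 0) (stdGaussian E) :=
    ((integrable_inner _).inf ((integrable_inner _).inf (integrable_inner _))).pos_part
  have hlow : lam * (b / 2 * ‖v i‖ ^ 2)
      ≤ ∫ x, max (min ⟪y 0, x⟫ (min ⟪y 1, x⟫ ⟪y 2, x⟫)) 0 ∂stdGaussian E := by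
    refine le_trans ?_ (setIntegral_le_integral (s := cell v i) hi
      (ae_of_all _ fun x => le_max_right _ _))
    set w : {k // k ≠ i} → E := fun k => v k with hw
    have hi2 : Integrable (fun x => ⟪(3 * b / 2) • v i + μ, x⟫ - mx w x) (stdGaussian E) :=
      (integrable_inner _).sub (integrable_mx w)
    refine le_trans ?_ (setIntegral_mono hi2.integrableOn hi.integrableOn fun x => ?_)
    · rw [integral_sub (integrable_inner _).integrableOn (integrable_mx w).integrableOn,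
        setIntegral_inner, h.hz]
      have := h.removal i
      simp only [μ, inner_add_left, real_inner_smul_left, real_inner_smul_right,
        real_inner_self_eq_norm_sq, real_inner_comm (v i) (v j), real_inner_comm (v i) (v k),
        real_inner_comm (v i) (v l)]
      nlinarith [mul_le_mul_of_nonneg_left hb h.lam_pos.le]
    · refine le_trans ?_ (le_max_left _ _)
      have a1 := le_mx w ⟨j, hij.symm⟩ x
      have a2 := le_mx w ⟨k, hik.symm⟩ x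
      have a3 := le_mx w ⟨l, hil.symm⟩ x
      simp only [y, Matrix.cons_val_zero, Matrix.cons_val_one, Matrix.cons_val, inner_sub_left,
        le_min_iff]
      simp only [hw] at a1 a2 a3
      refine ⟨by linarith, by linarith, by linarith⟩
  have h1 : lam * (b / 2 * ‖v i‖ ^ 2) * (3 * b / 2 * ‖v i‖ * √W)
      ≤ (9 * b / 2 * ‖v i‖) ^ 4 / (9 * √(2 * π) ^ 3) := by
    rw [← hsum]
    refine le_trans (mul_le_mul hlow hsq (by positivity) ?_) hT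
    exact integral_nonneg fun x => le_max_right _ _
  have h2 : cc * (b / 2 * ‖v i‖ ^ 2) * (3 * b / 2 * ‖v i‖ * √W)
      ≤ (9 * b / 2 * ‖v i‖) ^ 4 / (9 * √(2 * π) ^ 3) := by
    refine le_trans ?_ h1
    have := h.hlam.le
    gcongr
  have h3 : 4 * π * √W ≤ 81 * b ^ 2 * ‖v i‖ := by
    rw [le_div_iff₀ (by positivity)] at h2
    have h4 : cc * (b / 2 * ‖v i‖ ^ 2) * (3 * b / 2 * ‖v i‖ * √W) * (9 * √(2 * π) ^ 3)
        = (81 / 16 * b ^ 2 * ‖v i‖ ^ 3) * (2 * √(2 * π) ^ 2 * √W) := by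
      unfold cc; field_simp; ring
    rw [h4, sq_sqrt_two_pi] at h2
    have h5 : (9 * b / 2 * ‖v i‖) ^ 4 = (81 / 16 * b ^ 2 * ‖v i‖ ^ 3) * (81 * b ^ 2 * ‖v i‖) := by
      ring
    rw [h5] at h2
    have := le_of_mul_le_mul_left h2 (by positivity)
    linarith
  have h6 := pow_le_pow_left₀ (by positivity) h3 2
  rw [mul_pow, mul_pow, sq_sqrt hW0.le] at h6
  nlinarith

lemma small_cell' (h : Crit v lam) {i j k l : Fin (M + 1)} (hij : i ≠ j) (hik : i ≠ k)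
    (hil : i ≠ l) (hjk : j ≠ k) (hjl : j ≠ l) (hkl : k ≠ l) {b P Q f : ℝ} (hb0 : 0 < b)
    (hb : ‖v i‖ ^ 2 * ((M - 1) / (2 * M)) + (-⟪v i, v j⟫ + -⟪v i, v k⟫ + -⟪v i, v l⟫) / 3
      ≤ b * ‖v i‖ ^ 2)
    (hj : P ≤ ‖v j‖ ^ 2) (hk : P ≤ ‖v k‖ ^ 2) (hl : Q ≤ ‖v l‖ ^ 2) (hQ : Q ≤ P)
    (hi : ‖v i‖ ^ 2 ≤ Q) (hf : f = 3 ∨ (f = 27 / 4 ∧ M = 3)) :
    16 * π ^ 2 * (f * (P * (Q - ‖v i‖ ^ 2))) ≤ 6561 * b ^ 4 * ‖v i‖ ^ 2 := by
  refine h.small_cell hij hik hil hb0 hb ?_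
  have hs : 0 < ‖v i‖ ^ 2 := pow_pos (h.norm_pos i) 2
  have nij := h.inner_neg hij
  have nik := h.inner_neg hik
  have nil := h.inner_neg hil
  have njk := h.inner_neg hjk
  have njl := h.inner_neg hjl
  have nkl := h.inner_neg hkl
  have ti := h.three_le hij hik hil hjk hjl hkl
  have tj := h.three_le hij.symm hjk hjl hik hil hkl
  have tk := h.three_le hik.symm hjk.symm hkl hij hil hjl
  have tl := h.three_le hil.symm hjl.symm hkl.symm hij hik hjk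
  rw [real_inner_comm (v i) (v j)] at tj
  rw [real_inner_comm (v i) (v k), real_inner_comm (v j) (v k)] at tk
  rw [real_inner_comm (v i) (v l), real_inner_comm (v j) (v l), real_inner_comm (v k) (v l)] at tl
  have hx : ∀ {p q r : ℝ}, p < 0 → q < 0 → r < 0 → 0 ≤ -p + q * r / ‖v i‖ ^ 2 := by
    intro p q r hp hq hr
    have := div_nonneg (mul_pos_of_neg_of_neg hq hr).le hs.le
    linarith
  have ht : ∀ {p q : ℝ}, p < 0 → q < 0 → -p + -q ≤ ‖v i‖ ^ 2 →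
      p ^ 2 / ‖v i‖ ^ 2 + q ^ 2 / ‖v i‖ ^ 2 ≤ ‖v i‖ ^ 2 := by
    intro p q hp hq hpq
    rw [← add_div, div_le_iff₀ hs]
    nlinarith [mul_pos_of_neg_of_neg hp hq]
  have w1 := pair_ge (by positivity) (by positivity) (ht nik nil (by linarith)) hk hl hQ hi
  have w2 := pair_ge (by positivity) (by positivity) (ht nij nil (by linarith)) hj hl hQ hi
  have w3 := pair_ge (by positivity) (by positivity) (ht nij nik (by linarith)) hj
    (hQ.trans hk) hQ hi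
  have key : ∀ p : ℝ, p * ⟪v i, v j⟫ / ‖v i‖ ^ 2 + p * ⟪v i, v k⟫ / ‖v i‖ ^ 2
      + p * ⟪v i, v l⟫ / ‖v i‖ ^ 2 + p
      = p * (‖v i‖ ^ 2 + ⟪v i, v j⟫ + ⟪v i, v k⟫ + ⟪v i, v l⟫) / ‖v i‖ ^ 2 := fun p => by
    have := (h.norm_pos i).ne'
    field_simp; ring
  have k1 := key ⟪v i, v j⟫
  have k2 := key ⟪v i, v k⟫
  have k3 := key ⟪v i, v l⟫
  rw [← sq] at k1 k2 k3
  rw [mul_comm ⟪v i, v k⟫ ⟪v i, v j⟫] at k2
  rw [mul_comm ⟪v i, v l⟫ ⟪v i, v j⟫, mul_comm ⟪v i, v l⟫ ⟪v i, v k⟫] at k3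
  rcases hf with rfl | ⟨rfl, hM⟩
  · have key2 : ∀ p : ℝ, p < 0 →
        p * (‖v i‖ ^ 2 + ⟪v i, v j⟫ + ⟪v i, v k⟫ + ⟪v i, v l⟫) / ‖v i‖ ^ 2 ≤ 0 := fun p hp =>
      div_nonpos_of_nonpos_of_nonneg (mul_nonpos_of_nonpos_of_nonneg hp.le (by linarith)) hs.le
    exact Jsq_ge (hx nkl nik nil) (hx njl nij nil) (hx njk nij nik)
      (by linarith [key2 _ nij]) (by linarith [key2 _ nik]) (by linarith [key2 _ nil]) w1 w2 w3
  · have ti := h.three_eq hM hij hik hil hjk hjl hkl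
    have tj := h.three_eq hM hij.symm hjk hjl hik hil hkl
    have tk := h.three_eq hM hik.symm hjk.symm hkl hij hil hjl
    have tl := h.three_eq hM hil.symm hjl.symm hkl.symm hij hik hjk
    rw [real_inner_comm (v i) (v j)] at tj
    rw [real_inner_comm (v i) (v k), real_inner_comm (v j) (v k)] at tk
    rw [real_inner_comm (v i) (v l), real_inner_comm (v j) (v l), real_inner_comm (v k) (v l)] at tl
    have h0 : ‖v i‖ ^ 2 + ⟪v i, v j⟫ + ⟪v i, v k⟫ + ⟪v i, v l⟫ = 0 := by linarith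
    rw [h0, mul_zero, zero_div] at k1 k2 k3
    exact Jsq_ge' (hx nkl nik nil) (hx njl nij nil) (hx njk nij nik)
      (by linarith) (by linarith) (by linarith) w1 w2 w3

/-- The constraint from the three largest cells. -/
theorem T3 (h : Crit v lam) {i j k l : Fin (M + 1)} (hij : i ≠ j) (hik : i ≠ k)
    (hil : i ≠ l) (hjk : j ≠ k) (hjl : j ≠ l) (hkl : k ≠ l) {b f : ℝ}
    (hb : ((M : ℝ) - 1) / (2 * M) + 1 / 3 ≤ b)
    (hj : ‖v k‖ ^ 2 ≤ ‖v j‖ ^ 2) (hk : ‖v l‖ ^ 2 ≤ ‖v k‖ ^ 2) (hl : ‖v i‖ ^ 2 ≤ ‖v l‖ ^ 2)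
    (hf : f = 3 ∨ (f = 27 / 4 ∧ M = 3)) :
    16 * π ^ 2 * (f * (‖v k‖ ^ 2 * (‖v l‖ ^ 2 - ‖v i‖ ^ 2))) ≤ 6561 * b ^ 4 * ‖v i‖ ^ 2 := by
  have hM : (1 : ℝ) ≤ M := by have := h.three; exact_mod_cast (by omega : 1 ≤ M)
  have h0 : 0 ≤ ((M : ℝ) - 1) / (2 * M) := div_nonneg (by linarith) (by linarith)
  refine h.small_cell' hij hik hil hjk hjl hkl (by linarith) ?_ hj le_rfl le_rfl hk hl hf
  have := h.three_le hij hik hil hjk hjl hkl
  nlinarith [mul_le_mul_of_nonneg_right hb (sq_nonneg ‖v i‖)]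

/-- The constraint from the four largest cells. -/
theorem T4 (h : Crit v lam) {i j k l n : Fin (M + 1)} (hij : i ≠ j) (hik : i ≠ k) (hil : i ≠ l)
    (hin : i ≠ n) (hjk : j ≠ k) (hjl : j ≠ l) (hjn : j ≠ n) (hkl : k ≠ l) (hkn : k ≠ n)
    (hln : l ≠ n) {b : ℝ} (hb : ((M : ℝ) - 1) / (2 * M) + 1 / 4 ≤ b)
    (hj : ‖v k‖ ^ 2 ≤ ‖v j‖ ^ 2) (hk : ‖v l‖ ^ 2 ≤ ‖v k‖ ^ 2) (hl : ‖v n‖ ^ 2 ≤ ‖v l‖ ^ 2)
    (hn : ‖v i‖ ^ 2 ≤ ‖v n‖ ^ 2) :
    16 * π ^ 2 * (3 * (‖v l‖ ^ 2 * (‖v n‖ ^ 2 - ‖v i‖ ^ 2))) ≤ 6561 * b ^ 4 * ‖v i‖ ^ 2 := by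
  have hM : (1 : ℝ) ≤ M := by have := h.three; exact_mod_cast (by omega : 1 ≤ M)
  have h0 : 0 ≤ ((M : ℝ) - 1) / (2 * M) := div_nonneg (by linarith) (by linarith)
  have hb0 : 0 < b := by linarith
  have h4 := h.four_le hij hik hil hin hjk hjl hjn hkl hkn hln
  have hb' := mul_le_mul_of_nonneg_right hb (sq_nonneg ‖v i‖)
  by_cases c1 : -⟪v i, v j⟫ + -⟪v i, v k⟫ + -⟪v i, v l⟫ ≤ 3 / 4 * ‖v i‖ ^ 2
  · exact h.small_cell' hij hik hil hjk hjl hkl hb0 (by nlinarith) (hk.trans hj) hk hl hl hn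
      (Or.inl rfl)
  by_cases c2 : -⟪v i, v j⟫ + -⟪v i, v k⟫ + -⟪v i, v n⟫ ≤ 3 / 4 * ‖v i‖ ^ 2
  · exact h.small_cell' hij hik hin hjk hjn hkn hb0 (by nlinarith) (hk.trans hj) hk le_rfl hl hn
      (Or.inl rfl)
  by_cases c3 : -⟪v i, v j⟫ + -⟪v i, v l⟫ + -⟪v i, v n⟫ ≤ 3 / 4 * ‖v i‖ ^ 2
  · exact h.small_cell' hij hil hin hjl hjn hln hb0 (by nlinarith) (hk.trans hj) le_rfl le_rfl hl hn
      (Or.inl rfl)
  · exact h.small_cell' hik hil hin hkl hkn hln hb0 (by nlinarith) hk le_rfl le_rfl hl hn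
      (Or.inl rfl)

/-- The moment of a cell in its own direction. -/
lemma dir (h : Crit v lam) (i : Fin (M + 1)) : ∃ e : E, ‖e‖ = 1 ∧
    3 / 2 * ‖v i‖ < √(2 * π) * ∫ x in cell v i, ⟪e, x⟫ ∂stdGaussian E := by
  have hr := h.norm_pos i
  have hS := sqrt_two_pi_pos
  refine ⟨‖v i‖⁻¹ • v i, by rw [norm_smul, norm_inv, norm_norm]; field_simp, ?_⟩
  rw [setIntegral_inner, h.hz, real_inner_smul_left, real_inner_smul_right,
    real_inner_self_eq_norm_sq]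
  have h1 : √(2 * π) * (‖v i‖⁻¹ * (lam * ‖v i‖ ^ 2)) = (√(2 * π) * lam) * ‖v i‖ := by field_simp
  have h2 : √(2 * π) * cc = 3 / 2 := by unfold cc; field_simp
  rw [h1, ← h2]
  have := h.hlam
  gcongr

end Crit

end Crest.Agent.R215
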